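import Crest.Agent.X212.Geo46.Defs
import Crest.Agent.X212.Srf12.Pol
import Crest.Agent.R096.Xp3_537

/-!
# Loop theorem, geometric seam: triangulation of a neighbourhood of a compact set (helper44)
-/

set_option autoImplicit false

open Set Metric Topology

namespace Crest.Agent.X212.Lt44

open Crest.Agent.R096 Crest.Agent.R096.Ce_537 Crest.Agent.R096.Xp_537
open Crest.Agent.X212.Prd34 (V P up fl Mf)
open Crest.Agent.X212.Tw9 (Tri SimpStmt)
open Crest.Agent.X212.Geo46 (Simp2Stmt)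

section
variable {E : Type} [NormedAddCommGroup E] [NormedSpace ℝ E]

/-- every compact polyhedron is triangulated, finitely many polyhedra being subcomplexes -/
theorem exists_Tri [FiniteDimensional ℝ E] {S : Set E} (hS : Srf12.Poly S) {𝒜 : Set (Set E)}
    (hf : 𝒜.Finite) (h𝒜 : ∀ B ∈ 𝒜, Srf12.Poly B) :
    ∃ (ι : Type) (_ : Fintype ι) (T : Tri ι S), ∀ B ∈ 𝒜, T.Sub B := by
  classical
  obtain ⟨Q, _, _, C, hC, hs, -⟩ := Srf12.exists_tri hS hf h𝒜 ∅
  have := Fintype.ofFinite Q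
  have wt : ∀ y ∈ S, Wt (bc C y) ∧ bs C.b (bc C y) = y := fun y hy => by
    obtain ⟨q, hq⟩ := C.cover y hy
    exact ⟨(bc_spec C hq).1, (bc_spec C hq).2.1⟩
  have ebs : ∀ l : Q →₀ ℝ, ∑ u, l u • C.b u = bs C.b l := fun l =>
    (Finset.sum_subset (Finset.subset_univ _) fun u _ hu => by
      rw [Finsupp.notMem_support_iff.1 hu, zero_smul]).symm
  have esum : ∀ l : Q →₀ ℝ, ∑ u, l u = ∑ u ∈ l.support, l u := fun l =>
    (Finset.sum_subset (Finset.subset_univ _) fun u _ hu => Finsupp.notMem_support_iff.1 hu).symm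
  let T : Tri Q S :=
    { pt := C.b
      be := fun u y => bc C y u
      cpt := hS.isCompact
      pl := fun u => (plOn_biUnion (K := C.cell) univ (toFinite _) (fun q _ => plOn_bc C q u)
        fun q _ => (C.cpt q).isClosed).mono fun y hy => by simpa using C.cover y hy
      nn := fun y hy u => (wt y hy).1.nn u
      sum := fun y hy => (esum _).trans (wt y hy).1.sum
      rep := fun y hy => (ebs _).trans (wt y hy).2
      face := fun y hy w h0 h1 h2 => by
        obtain ⟨q, hq⟩ := C.cover y hy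
        let l : Q →₀ ℝ := Finsupp.equivFunOnFinite.symm w
        have sb : l.support ⊆ (bc C y).support := fun u hu =>
          Finsupp.mem_support_iff.2 fun h => Finsupp.mem_support_iff.1 hu (h2 u h)
        have hl : Wt l := ⟨h0, (esum l).symm.trans h1, fun u hu v hv =>
          (wt y hy).1.chain u (sb hu) v (sb hv)⟩
        have e : ∑ u, w u • C.b u = bs C.b l := ebs l
        rw [e, bc_bs C hl]
        exact ⟨C.sub q (bs_mem C hl fun u hu => (bc_spec C hq).2.2 u (sb hu)), fun _ => rfl⟩ }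
  refine ⟨Q, inferInstance, T, fun B hB y hy y' hy' hyB h => ?_⟩
  obtain ⟨q0, hq0⟩ := C.cover y hy
  obtain ⟨q, -, hq⟩ := hC.cx.exists_opn hq0
  refine hs B hB q y hq hyB ?_
  rw [← (wt y' hy').2]
  refine bs_mem C (wt y' hy').1 fun u hu => (bc_spec C hq.1).2.2 u ?_
  exact Finsupp.mem_support_iff.2 fun k => Finsupp.mem_support_iff.1 hu (h u k)

/-- a vertex of the carrier of a point of a subcomplex lies in the subcomplex -/
theorem pt_mem {ι : Type} [Fintype ι] {S : Set E} (T : Tri ι S) {B : Set E} (hB : T.Sub B)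
    {y : E} (hy : y ∈ S) (hyB : y ∈ B) {u : ι} (hu : 0 < T.be u y) : T.pt u ∈ B := by
  classical
  have h := T.face y hy (Pi.single u 1) (fun v => by
    by_cases k : v = u <;> simp [k]) (by simp) fun v hv => by
      have : v ≠ u := fun k => hu.ne' (k ▸ hv)
      simp [this]
  have e : ∑ v, (Pi.single u 1 : ι → ℝ) v • T.pt v = T.pt u := by
    rw [Finset.sum_eq_single u] <;> simp +contextual
  rw [e] at h
  refine hB y hy _ h.1 hyB fun v hv => ?_
  have : v ≠ u := fun k => hu.ne' (k ▸ hv)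
  simp [h.2 v, this]

end

theorem poly_cball (x : V) {r : ℝ} (hr : 0 < r) : Srf12.Poly (closedBall x r) := by
  have h := (Srf12.poly_cube 3).image (f := fun y : V => x + r • y)
    (plOn_affine (AffineMap.const ℝ V x + r • AffineMap.id ℝ V) _)
  convert h using 1
  ext y
  simp only [mem_image, mem_closedBall, dist_eq_norm]
  constructor
  · intro hy
    refine ⟨r⁻¹ • (y - x), ?_, by rw [smul_inv_smul₀ hr.ne']; simp⟩
    rw [sub_zero, norm_smul, norm_inv, Real.norm_of_nonneg hr.le, inv_mul_le_iff₀ hr]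
    simpa using hy
  · rintro ⟨z, hz, rfl⟩
    rw [add_sub_cancel_left, norm_smul, Real.norm_of_nonneg hr.le]
    rw [sub_zero] at hz
    nlinarith [norm_nonneg z]

theorem poly_up : Srf12.Poly (cube 3 ∩ up) :=
  Srf12.poly_vp ((Cb_609.vp_cube 3).inter_nonneg
    (LinearMap.proj (R := ℝ) (φ := fun _ : Fin 3 => ℝ) 2).toAffineMap)

theorem poly_fl : Srf12.Poly (cube 3 ∩ fl) :=
  (Srf12.poly_cube 3).preimage (plOn_affine
    (LinearMap.proj (R := ℝ) (φ := fun _ : Fin 3 => ℝ) 2).toAffineMap _)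
    (Srf12.poly_singleton (0 : ℝ))

/-- polyhedral neighbourhoods in a PL manifold -/
theorem poly_nhd {M dM C : Set V} (hM : Mf M dM) (hC : IsCompact C) (hCM : C ⊆ M) :
    ∃ X, Srf12.Poly X ∧ Srf12.Poly (X ∩ dM) ∧ X ⊆ M ∧ ∀ y ∈ C, X ∈ 𝓝[M] y := by
  have loc : ∀ x ∈ C, ∃ N, Srf12.Poly N ∧ Srf12.Poly (N ∩ dM) ∧ N ⊆ M ∧ N ∈ 𝓝[M] x := by
    intro x hx
    by_cases hd : x ∈ dM
    · obtain ⟨B, e, -, h2, h3, h4⟩ := hM.2.2 x hd
      refine ⟨B ∩ M, h3 ▸ poly_up.image (e.pf.mono inter_subset_left), ?_, inter_subset_right,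
        Filter.inter_mem (mem_nhdsWithin_of_mem_nhds h2) self_mem_nhdsWithin⟩
      rw [inter_assoc, inter_eq_self_of_subset_right hM.1, h4]
      exact poly_fl.image (e.pf.mono inter_subset_left)
    · obtain ⟨r, hr, h⟩ := nhds_basis_closedBall.mem_iff.1 (hM.2.1.mem_nhds ⟨hCM hx, hd⟩)
      refine ⟨closedBall x r, poly_cball x hr, ?_, fun y hy => (h hy).1,
        mem_nhdsWithin_of_mem_nhds (closedBall_mem_nhds x hr)⟩
      rw [eq_empty_of_forall_notMem (s := closedBall x r ∩ dM) fun y hy => (h hy.1).2 hy.2]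
      exact Srf12.poly_empty
  choose! N h1 h2 h3 h4 using loc
  have ex : ∀ x ∈ C, ∃ O, IsOpen O ∧ x ∈ O ∧ O ∩ M ⊆ N x := fun x hx =>
    mem_nhdsWithin.1 (h4 x hx)
  choose! O o1 o2 o3 using ex
  obtain ⟨t, ht, hcov⟩ := hC.elim_nhds_subcover O fun x hx => (o1 x hx).mem_nhds (o2 x hx)
  refine ⟨⋃ x ∈ (t : Set V), N x, Srf12.poly_biUnion t.finite_toSet fun x hx => h1 x (ht x hx), ?_,
    iUnion₂_subset fun x hx => h3 x (ht x hx), fun y hy => ?_⟩
  · rw [iUnion₂_inter]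
    exact Srf12.poly_biUnion t.finite_toSet fun x hx => h2 x (ht x hx)
  · obtain ⟨x, hx, hyx⟩ := mem_iUnion₂.1 (hcov hy)
    exact mem_nhdsWithin.2 ⟨O x, o1 x (ht x hx), hyx,
      (o3 x (ht x hx)).trans (subset_biUnion_of_mem (u := N) hx)⟩

/-- **(SIMP2)** -/
theorem simp2Stmt : Simp2Stmt := by
  intro M dM C Q hM hC hCM hQ
  obtain ⟨X0, a1, -, a3, a4⟩ := poly_nhd hM hC hCM
  obtain ⟨X1, b1, b2, b3, b4⟩ := poly_nhd hM a1.isCompact a3
  obtain ⟨X2, c1, -, c3, c4⟩ := poly_nhd hM b1.isCompact b3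
  obtain ⟨ι, _, T, hT⟩ := exists_Tri b1 (𝒜 := {X0, X1 ∩ dM, Q, closure (X2 \ X1)}) (toFinite _)
    (by
      rintro B (rfl | rfl | rfl | rfl)
      exacts [a1, b2, hQ, c1.closure_diff b1])
  have C0 : C ⊆ X0 := fun x hx => mem_of_mem_nhdsWithin (hCM hx) (a4 x hx)
  have C1 : X0 ⊆ X1 := fun x hx => mem_of_mem_nhdsWithin (a3 hx) (b4 x hx)
  refine ⟨ι, inferInstance, X1, T, C0.trans C1, b3,
    fun y hy y' hy' k h => (hT (X1 ∩ dM) (by simp) y hy y' hy' ⟨hy, k⟩ h).2, hT Q (by simp), ?_⟩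
  rintro u ⟨x, hx, hu⟩ y hy hyu
  have p0 := pt_mem T (hT X0 (by simp)) (C1 (C0 hx)) (C0 hx) hu
  have nz : y ∉ closure (X2 \ X1) := fun k => by
    have p1 := pt_mem T (hT _ (by simp)) hy k hyu
    obtain ⟨O, o1, o2, o3⟩ := mem_nhdsWithin.1 (b4 _ p0)
    obtain ⟨z, z1, z2⟩ := mem_closure_iff.1 p1 O o1 o2
    exact z2.2 (o3 ⟨z1, c3 z2.1⟩)
  filter_upwards [c4 y hy, mem_nhdsWithin_of_mem_nhds (isClosed_closure.isOpen_compl.mem_nhds nz)]
    with z z1 z2
  exact by_contra fun k => z2 (subset_closure ⟨z1, k⟩)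

/-- **(SIMP)** -/
theorem simpStmt : SimpStmt := fun M dM C hM hC hCM => by
  obtain ⟨ι, _, X, T, h1, h2, h3, -, h4⟩ := simp2Stmt M dM C ∅ hM hC hCM Srf12.poly_empty
  exact ⟨ι, inferInstance, X, T, h1, h2, h3, h4⟩

end Crest.Agent.X212.Lt44
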