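import Crest.Agent.X212.Lt44.Cyc

/-!
# Combinatorial loop theorem: the TOP of the tower (helper44)
-/

set_option autoImplicit false

namespace Crest.Agent.X212.Lt44

open Crest.Agent.X212.Dsc37

theorem sm_sum {ι κ : Type*} [Fintype ι] [Fintype κ] (P : ι ⊕ κ → Prop) (a : ι ⊕ κ → ZMod 2) :
    sm P a = sm (fun i => P (.inl i)) (fun i => a (.inl i)) +
      sm (fun j => P (.inr j)) (fun j => a (.inr j)) := by
  unfold sm
  rw [Fintype.sum_sum_type]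

variable {G : Type} {X : Dat G} [AddGroup G]

theorem const_triF (hO : X.OK) (hL : X.Loc) (hC : Conn sub X.Fg) {u : Finset X.V → ZMod 2}
    (hu : ∀ e, Sx X 2 e → Mt X.A e → sm (fun t => Sx X 3 t ∧ t ∈ X.F ∧ e ⊆ t) u = 0) :
    ∃ k, ∀ t, Sx X 3 t → t ∈ X.F → Mt X.A t → u t = k := by
  have ex2 : ∀ σ ∈ X.F, Mt X.A σ → 2 ≤ σ.card → ∃ t, Sx X 3 t ∧ t ∈ X.F ∧ σ ⊆ t := by
    intro σ hσ hm hc
    by_cases h2 : σ.card = 2
    · obtain ⟨x, y, -, h⟩ := two_tri hO h2 hm hσ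
      exact ⟨x, (h x).2 (Or.inl rfl)⟩
    · have := hO.dimF σ hσ
      exact ⟨σ, ⟨hO.FK hσ, by omega⟩, hσ, subset_rfl⟩
  have un2 : ∀ σ ∈ X.F, Mt X.A σ → 2 ≤ σ.card → ∀ t t', Sx X 3 t ∧ t ∈ X.F ∧ σ ⊆ t →
      Sx X 3 t' ∧ t' ∈ X.F ∧ σ ⊆ t' → u t = u t' := by
    intro σ hσ hm hc t t' ht ht'
    by_cases h2 : σ.card = 2
    · obtain ⟨x, y, hxy, h⟩ := two_tri hO h2 hm hσ
      have h0 := hu σ ⟨hO.FK hσ, h2⟩ hm
      rw [sm_two hxy h, z2e] at h0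
      rcases (h t).1 ht with rfl | rfl <;> rcases (h t').1 ht' with k | k <;> simp [k, h0]
    · rw [← eq_of_card ht.2.2 (by rw [ht.1.2]; omega), ← eq_of_card ht'.2.2 (by rw [ht'.1.2]; omega)]
  have big : ∀ (a : X.V) (σ : Finset X.V), a ∈ σ → σ ≠ {a} → 2 ≤ σ.card := fun a σ k2 k3 => by
    have := Finset.card_lt_card (Finset.ssubset_iff_subset_ne.2
      ⟨Finset.singleton_subset_iff.2 k2, k3.symm⟩)
    rw [Finset.card_singleton] at this
    omega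
  have sing : ∀ σ ∈ X.F, Mt X.A σ → ¬ 2 ≤ σ.card → ∃ a ∈ X.A, σ = {a} := by
    rintro σ - ⟨a, ha, hA⟩ hc
    exact ⟨a, hA, by_contra fun h => hc (big a σ ha h)⟩
  have ex : ∀ σ ∈ X.F, Mt X.A σ → ∃ t, Sx X 3 t ∧ t ∈ X.F ∧ σ ⊆ t := by
    intro σ hσ hm
    by_cases hc : 2 ≤ σ.card
    · exact ex2 σ hσ hm hc
    obtain ⟨a, ha, rfl⟩ := sing σ hσ hm hc
    obtain ⟨ρ, k1, k2, k3⟩ := (hL.vertF a ha hσ).1
    obtain ⟨t, j1, j2, j3⟩ := ex2 ρ k1 ⟨a, k2, ha⟩ (big a ρ k2 k3)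
    exact ⟨t, j1, j2, (Finset.singleton_subset_iff.2 k2).trans j3⟩
  have prop : ∀ (W : Set (Finset X.V)), Conn sub W → (∀ σ ∈ W, σ ∈ X.F ∧ Mt X.A σ) →
      (∀ σ ∈ W, ∀ t t', Sx X 3 t ∧ t ∈ X.F ∧ σ ⊆ t → Sx X 3 t' ∧ t' ∈ X.F ∧ σ ⊆ t' → u t = u t') →
      ∀ t ∈ W, ∀ t' ∈ W, Sx X 3 t → Sx X 3 t' → u t = u t' := by
    intro W hW hF hun t ht t' ht' s s'
    have key := hW.2 (fun σ => ∃ v, (Sx X 3 v ∧ v ∈ X.F ∧ σ ⊆ v) ∧ u v = u t) ?_ t ht t' ht'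
    · obtain ⟨v, hv, h⟩ := key.1 ⟨t, ⟨s, (hF t ht).1, subset_rfl⟩, rfl⟩
      rw [← h, eq_of_card hv.2.2 (by rw [hv.1.2, s'.2])]
    · intro σ hσ ρ hρ hs
      constructor
      · rintro ⟨v, hv, h⟩
        obtain ⟨v', hv'⟩ := ex ρ (hF ρ hρ).1 (hF ρ hρ).2
        exact ⟨v', hv', (hun σ hσ v' v ⟨hv'.1, hv'.2.1, hs.trans hv'.2.2⟩ hv).trans h⟩
      · rintro ⟨v, hv, h⟩
        exact ⟨v, ⟨hv.1, hv.2.1, hs.trans hv.2.2⟩, h⟩
  have un : ∀ σ ∈ X.Fg, ∀ t t', Sx X 3 t ∧ t ∈ X.F ∧ σ ⊆ t →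
      Sx X 3 t' ∧ t' ∈ X.F ∧ σ ⊆ t' → u t = u t' := by
    rintro σ ⟨hσ, hm⟩ t t' ht ht'
    by_cases hc : 2 ≤ σ.card
    · exact un2 σ hσ hm hc t t' ht ht'
    obtain ⟨a, ha, rfl⟩ := sing σ hσ hm hc
    have ne : ∀ t, Sx X 3 t → t ≠ {a} := fun t ht h => by have := ht.2; simp [h] at this
    exact prop _ (hL.vertF a ha hσ) (fun σ k => ⟨k.1, a, k.2.1, ha⟩)
      (fun σ k => un2 σ k.1 ⟨a, k.2.1, ha⟩ (big a σ k.2.1 k.2.2))
      t ⟨ht.2.1, Finset.singleton_subset_iff.1 ht.2.2, ne t ht.1⟩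
      t' ⟨ht'.2.1, Finset.singleton_subset_iff.1 ht'.2.2, ne t' ht'.1⟩ ht.1 ht'.1
  obtain ⟨σ, hσ, hm⟩ := hC.1
  obtain ⟨t0, k1, k2, k3⟩ := ex σ hσ hm
  exact ⟨u t0, fun t j1 j2 j3 =>
    prop _ hC (fun _ k => k) un t ⟨j2, j3⟩ t0 ⟨k2, Mt.mono hm k3⟩ j1 k1⟩

/-- **(b)** the frontier has no `H^1` -/
theorem h0_Zm (hO : X.OK) (hL : X.Loc) (hH : H1On X.K X.A) (hC : Conn sub X.Fg) :
    H0 sub (Zm X) := by
  intro c hc
  obtain ⟨β, hβ⟩ := d0 (fun e => Sx X 2 e ∧ Mix X e) (fun t => Sx X 3 t ∧ Mix X t)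
    (fun e t => e ⊆ t) (fun t => sm (fun e => (Sx X 2 e ∧ Mix X e) ∧ e ⊆ t) fun e => c e t)
    (fun a ha => by
      obtain ⟨y, yw, h1, h2, h3⟩ := cyc_bound hO hL hH (am := a) (aw := fun _ => 0)
        (fun _ _ => rfl) (fun e he hm => by rw [ha e ⟨he, hm⟩, add_zero])
        fun _ _ => sm_zero fun _ _ => rfl
      obtain ⟨k, hk⟩ := const_triF hO hL hC fun e he hm => (h3 e he hm).symm
      have h4 : ∀ t, Sx X 3 t ∧ Mix X t → a t = sm (fun T => Sx X 4 T ∧ t ⊆ T) fun T => y T + k := by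
        rintro t ⟨ht, hm⟩
        rw [h1 t ht hm, sm_add]
        congr 1
        by_cases hF : t ∈ X.F
        · obtain ⟨x, hx⟩ := one_tet hO ht hm.1 hF
          rw [sm_one hx, hk t ht hF hm.1]
        · rw [h2 t ht hm.1 hF, sm_const_two (two_tet hO ht hm.1 hF)]
      rw [sm_congr (fun _ => Iff.rfl) fun t ht => by rw [h4 t ht, mul_sm],
        sm_comm _ (fun t T => Sx X 4 T ∧ t ⊆ T) (fun T => Sx X 4 T) _ fun _ _ _ h => h.1]
      refine sm_zero fun T hT => ?_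
      rw [← sm_mul]
      refine mul_eq_zero_of_left ?_ _
      have e1 : ∀ t, (Sx X 3 t ∧ Mix X t) ∧ Sx X 4 T ∧ t ⊆ T →
          sm (fun e => (Sx X 2 e ∧ Mix X e) ∧ e ⊆ t) (fun e => c e t)
            = sm (fun e => (Sx X 2 e ∧ Mix X e) ∧ e ⊆ t) fun e => c e T := by
        rintro t ⟨⟨ht, hm⟩, -, s⟩
        rw [sm_congr (b := fun e => c e t + c t T) (a := fun e => c e T) (fun _ => Iff.rfl)
          fun e he => hc e ⟨he.1.1.1, he.1.2⟩ t ⟨ht.1, hm⟩ T ⟨hT.1, hm.mono s⟩ he.2 s,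
          sm_add, sm_const_two (two_mix hO ht hm), add_zero]
      rw [sm_congr (fun _ => Iff.rfl) e1, sm_comm _ (fun t e => (Sx X 2 e ∧ Mix X e) ∧ e ⊆ t)
        (fun e => (Sx X 2 e ∧ Mix X e) ∧ e ⊆ T) (fun _ e => c e T)
        fun t e ht he => ⟨he.1, he.2.trans ht.2.2⟩]
      refine sm_zero fun e he => sm_const_two ?_ _
      obtain ⟨x, y, hxy, h⟩ := btw hO (n := 2) hT he.1.1.2 he.2
      refine ⟨x, y, hxy, fun t => ?_⟩
      rw [← h]
      exact ⟨fun k => ⟨k.1.1.1, k.2.2, k.1.2.2⟩,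
        fun k => ⟨⟨⟨k.1, he.1.2.mono k.2.1⟩, hT, k.2.2⟩, he.1, k.2.1⟩⟩)
  obtain ⟨l, hl, -⟩ := ext_pot hO hc (β := β) fun t ht hm => by
    rw [sm_add, ← hβ t ⟨ht, hm⟩, z2]
  exact ⟨l, hl⟩

/-- an edge cocycle of the good boundary has a potential which is constant on the frontier -/
theorem coh0 (hO : X.OK) (hL : X.Loc) (hH : H1On X.K X.A) {α : Finset X.V → ZMod 2}
    (hα : ∀ t, Sx X 3 t → t ∈ X.F → Mt X.A t →
      sm (fun e => (Sx X 2 e ∧ Mt X.A e) ∧ e ⊆ t) α = 0) :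
    ∃ (bw : X.V → ZMod 2) (bm : Finset X.V → ZMod 2),
      (∀ x ∈ Zm X, ∀ y ∈ Zm X, x ⊆ y → bm y = bm x) ∧
      (∀ a ∈ X.A, ∀ b ∈ X.A, a ≠ b → {a, b} ∈ X.F → α {a, b} = bw a + bw b) ∧
      ∀ a ∈ X.A, ∀ x ∉ X.A, {a, x} ∈ X.F → α {a, x} = bw a + bm {a, x} := by
  classical
  obtain ⟨β, hβ⟩ := d0 (ι := Finset X.V ⊕ X.V) (κ := Finset X.V ⊕ Finset X.V)
    (Sum.elim (fun e => Sx X 2 e ∧ Mix X e) fun a => a ∈ X.A)
    (Sum.elim (fun t => Sx X 3 t ∧ Mix X t) fun e => Sx X 2 e ∧ Mt X.A e ∧ e ∈ X.F)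
    (Sum.elim (fun e => Sum.elim (fun t => e ⊆ t) fun e' => e' = e)
      fun a => Sum.elim (fun _ => False) fun e => a ∈ e)
    (Sum.elim (fun _ => 0) α) (fun a ha => by
      obtain ⟨y, yw, -, -, h3⟩ := cyc_bound hO hL hH (am := fun t => a (.inl t))
        (aw := fun e => if e ∈ X.F then a (.inr e) else 0) (fun e he => if_neg he)
        (fun e he hm => by
          have := ha (.inl e) ⟨he, hm⟩
          rw [sm_sum] at this
          simp only [Sum.elim_inl, Sum.elim_inr] at this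
          refine Eq.trans ?_ this
          congr 1
          by_cases hF : e ∈ X.F
          · rw [if_pos hF, sm_one (x := e) fun j => ⟨fun k => k.2, fun k => ⟨k ▸ ⟨he, hm.1, hF⟩, k⟩⟩]
          · rw [if_neg hF]
            symm
            refine sm_zero ?_
            rintro j ⟨k1, rfl⟩
            exact absurd k1.2.2 hF)
        fun b hb => by
          have := ha (.inr b) hb
          rw [sm_sum] at this
          simp only [Sum.elim_inl, Sum.elim_inr] at this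
          rw [sm_zero fun j k => k.2.elim, zero_add] at this
          rw [sm_drop (Q := fun e => e ∈ X.F) fun e _ h => if_neg h]
          refine Eq.trans ?_ this
          exact sm_congr (fun e => ⟨fun k => ⟨⟨k.1.1, ⟨b, k.1.2, hb⟩, k.2⟩, k.1.2⟩,
            fun k => ⟨⟨k.1.1, k.2⟩, k.1.2.2⟩⟩) fun e k => if_pos k.1.2.2
      rw [sm_sum]
      simp only [Sum.elim_inl, Sum.elim_inr]
      have e1 : ∀ e, Sx X 2 e ∧ Mt X.A e ∧ e ∈ X.F → α e * a (.inr e)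
          = sm (fun t => Sx X 3 t ∧ t ∈ X.F ∧ e ⊆ t) fun t => α e * yw t := fun e he => by
        have := h3 e he.1 he.2.1
        rw [if_pos he.2.2] at this
        rw [this, mul_sm]
      rw [sm_zero fun j _ => zero_mul _, zero_add, sm_congr (fun _ => Iff.rfl) e1,
        sm_comm _ (fun e t => Sx X 3 t ∧ t ∈ X.F ∧ e ⊆ t)
          (fun t => Sx X 3 t ∧ t ∈ X.F ∧ Mt X.A t) _
          fun e t he ht => ⟨ht.1, ht.2.1, Mt.mono he.2.1 ht.2.2⟩]
      refine sm_zero fun t ht => ?_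
      rw [← sm_mul]
      refine mul_eq_zero_of_left ?_ _
      rw [← hα t ht.1 ht.2.1 ht.2.2]
      exact sm_congr (fun e => ⟨fun k => ⟨⟨k.1.1, k.1.2.1⟩, k.2.2.2⟩, fun k =>
        ⟨⟨k.1.1, k.1.2, hO.cxF.down t ht.2.1 e k.2 (Finset.card_pos.1 (by rw [k.1.1.2]; omega))⟩,
          ht.1, ht.2.1, k.2⟩⟩) fun _ _ => rfl)
  obtain ⟨l, hl, hl'⟩ := ext_pot hO (c := fun _ _ => 0) (fun _ _ _ _ _ _ _ _ => (add_zero _).symm)
    (β := fun e => β (.inl e)) fun t ht hm => by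
      have := hβ (.inl t) ⟨ht, hm⟩
      rw [sm_sum] at this
      simp only [Sum.elim_inl, Sum.elim_inr] at this
      rw [sm_zero (ι := X.V) fun j k => k.2.elim, add_zero] at this
      simp only [add_zero, ← this]
  refine ⟨fun a => β (.inr a), l, fun x hx y hy s => by rw [hl x hx y hy s, add_zero],
    fun a ha b hb hab hF => ?_, fun a ha x hx hF => ?_⟩
  · have := hβ (.inr {a, b}) ⟨⟨hO.FK hF, Finset.card_pair hab⟩, ⟨a, by simp, ha⟩, hF⟩
    rw [sm_sum] at this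
    simp only [Sum.elim_inl, Sum.elim_inr] at this
    rw [this, sm_zero, zero_add, sm_two hab]
    · intro j
      simp only [Finset.mem_insert, Finset.mem_singleton]
      exact ⟨fun k => k.2, fun k => ⟨by rcases k with rfl | rfl <;> assumption, k⟩⟩
    · rintro e ⟨k1, rfl⟩
      exact absurd (fun u hu => by simp at hu; rcases hu with rfl | rfl <;> assumption) k1.2.2
  · have hax : a ≠ x := fun h => hx (h ▸ ha)
    have hs : Sx X 2 {a, x} := ⟨hO.FK hF, Finset.card_pair hax⟩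
    have := hβ (.inr {a, x}) ⟨hs, ⟨a, by simp, ha⟩, hF⟩
    rw [sm_sum] at this
    simp only [Sum.elim_inl, Sum.elim_inr] at this
    rw [this, sm_one (x := ({a, x} : Finset X.V)), sm_one (x := a), hl' _ hs (mix_pair ha hx),
      add_comm]
    · intro j
      simp only [Finset.mem_insert, Finset.mem_singleton]
      exact ⟨fun k => k.2.resolve_right fun h => hx (h ▸ k.1), fun k => ⟨k ▸ ha, Or.inl k⟩⟩
    · exact fun j => ⟨fun k => k.2.symm, fun k => ⟨k ▸ ⟨hs, mix_pair ha hx⟩, k.symm⟩⟩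

/-- the mixed boundary simplices -/
def ZF (X : Dat G) : Set (Finset X.V) := {σ | σ ∈ X.F ∧ Mix X σ}

open Classical in
/-- value of a potential at the vertex `x` of `σ` -/
noncomputable def ph (X : Dat G) (lw : X.V → G) (lm : Finset X.V → G) (σ : Finset X.V)
    (x : X.V) : G := if x ∈ X.A then lw x + X.g {x} σ else lm σ

/-- **(c)** trivial on the boundary curves implies trivial -/
theorem cob_Fg (hO : X.OK) (hL : X.Loc) (hH : H1On X.K X.A) (h : Cob sub (ZF X) X.g) :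
    Cob sub X.Fg X.g := by
  classical
  let Bad : (X.V → G) → (Finset X.V → G) → Finset X.V → Prop := fun lw lm e =>
    Sx X 2 e ∧ Mt X.A e ∧ e ∈ X.F ∧ ∃ x ∈ e, ∃ y ∈ e, ph X lw lm e x ≠ ph X lw lm e y
  have sF : ∀ σ ∈ X.F, ∀ x ∈ σ, x ∈ X.A → {x} ∈ X.Fg := fun σ hσ x hx hA =>
    ⟨hO.cxF.down σ hσ _ (Finset.singleton_subset_iff.2 hx) (by simp), x, by simp, hA⟩
  have main : ∀ n, ∀ lw lm, (∀ x ∈ ZF X, ∀ y ∈ ZF X, x ⊆ y → lm y = lm x + X.g x y) →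
      {e | Bad lw lm e}.ncard = n → Cob sub X.Fg X.g := by
    intro n
    induction n using Nat.strong_induction_on with
    | _ n ih =>
    intro lw lm adm hn
    have up : ∀ e ∈ X.F, Mt X.A e → ∀ t ∈ X.F, e ⊆ t → ∀ x ∈ e,
        ph X lw lm t x = ph X lw lm e x + X.g e t := by
      intro e he hm t ht s x hx
      by_cases hA : x ∈ X.A
      · simp only [ph, hA, if_true, add_assoc]
        rw [hO.coc _ (sF e he x hx hA) e ⟨he, hm⟩ t ⟨ht, Mt.mono hm s⟩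
          (Finset.singleton_subset_iff.2 hx) s]
      · simp only [ph, hA, if_false]
        have m : Mix X e := ⟨hm, fun k => hA (k x hx)⟩
        exact adm e ⟨he, m⟩ t ⟨ht, m.mono s⟩ s
    have toBad : ∀ t ∈ X.F, ∀ x ∈ t, ∀ y ∈ t, ph X lw lm t x ≠ ph X lw lm t y →
        Bad lw lm {x, y} := by
      intro t ht x hx y hy hne
      have hxy : x ≠ y := fun h => hne (h ▸ rfl)
      have hF := hO.cxF.down t ht _ (pair_sub hx hy) (by simp)
      have hm : Mt X.A {x, y} := by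
        by_contra hm
        have k1 : x ∉ X.A := fun k => hm ⟨x, by simp, k⟩
        have k2 : y ∉ X.A := fun k => hm ⟨y, by simp, k⟩
        exact hne (by simp [ph, k1, k2])
      refine ⟨⟨hO.FK hF, Finset.card_pair hxy⟩, hm, hF, x, by simp, y, by simp, fun k => hne ?_⟩
      rw [up _ hF hm t ht (pair_sub hx hy) x (by simp), up _ hF hm t ht (pair_sub hx hy) y (by simp),
        k]
    by_cases hB : ∃ e, Bad lw lm e
    swap
    · have ex : ∀ σ : Finset X.V, ∃ v : G, ∀ a ∈ σ, a ∈ X.A → σ ∈ X.F → v = ph X lw lm σ a := by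
        intro σ
        by_cases hm : Mt X.A σ
        · obtain ⟨a, ha, -⟩ := hm
          exact ⟨ph X lw lm σ a, fun b hb _ hF =>
            by_contra fun k => hB ⟨_, toBad σ hF a ha b hb k⟩⟩
        · exact ⟨0, fun a ha hA => absurd ⟨a, ha, hA⟩ hm⟩
      choose L hL' using ex
      refine ⟨L, fun σ hσ ρ hρ s => ?_⟩
      obtain ⟨a, ha, hA⟩ := hσ.2
      rw [hL' σ a ha hA hσ.1, hL' ρ a (s ha) hA hρ.1, up σ hσ.1 hσ.2 ρ hρ.1 s a ha]
    obtain ⟨a, ha0, ⟨e0, he0⟩, ha⟩ := even_sub (Bad lw lm) (fun e t => Sx X 3 t ∧ t ∈ X.F ∧ e ⊆ t)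
      hB (fun e he => two_tri hO he.1.2 he.2.1 he.2.2.1) (by
        rintro t e ⟨k1, k2, k3, x, hx, y, hy, hne⟩ ⟨j1, j2, j3⟩
        obtain ⟨z, hz, hze⟩ := Finset.exists_mem_notMem_of_card_lt_card (s := e) (t := t)
          (by rw [k1.2, j1.2]; omega)
        have hne' : ph X lw lm t x ≠ ph X lw lm t y := by
          rw [up e k3 k2 t j2 j3 x hx, up e k3 k2 t j2 j3 y hy]
          exact fun k => hne (add_right_cancel k)
        by_cases hq : ph X lw lm t x = ph X lw lm t z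
        · exact ⟨{y, z}, fun k => hze (k ▸ by simp), toBad t j2 y (j3 hy) z hz
            (fun k => hne' (hq.trans k.symm)), j1, j2, pair_sub (j3 hy) hz⟩
        · exact ⟨{x, z}, fun k => hze (k ▸ by simp), toBad t j2 x (j3 hx) z hz hq, j1, j2,
            pair_sub (j3 hx) hz⟩)
    obtain ⟨bw, bm, b1, b2, b3⟩ := coh0 hO hL hH (α := a) fun t ht hF _ => by
      rw [sm_drop (Q := Bad lw lm) fun e _ k => ha0 e k, ← ha t]
      exact sm_congr (fun e => ⟨fun k => ⟨k.2, ht, hF, k.1.2⟩,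
        fun k => ⟨⟨⟨k.1.1, k.1.2.1⟩, k.2.2.2⟩, k.1⟩⟩) fun _ _ => rfl
    let ps : Finset X.V → X.V → ZMod 2 := fun e x => if x ∈ X.A then bw x else bm e
    have hps : ∀ x y, x ≠ y → {x, y} ∈ X.F → Mt X.A {x, y} →
        a {x, y} = ps {x, y} x + ps {x, y} y := by
      intro x y hxy hF hm
      by_cases k1 : x ∈ X.A <;> by_cases k2 : y ∈ X.A <;> simp only [ps, k1, k2, if_true, if_false]
      · exact b2 x k1 y k2 hxy hF
      · exact b3 x k1 y k2 hF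
      · rw [Finset.pair_comm] at hF ⊢
        rw [b3 y k2 x k1 hF, add_comm]
      · obtain ⟨u, hu, hA⟩ := hm
        simp at hu
        rcases hu with rfl | rfl <;> contradiction
    have B0 : Bad lw lm e0 := by_contra fun k => he0 (ha0 e0 k)
    obtain ⟨x0, y0, hxy0, rfl⟩ := Finset.card_eq_two.1 B0.1.2
    have hne0 : ps {x0, y0} y0 ≠ ps {x0, y0} x0 := fun k =>
      he0 (by rw [hps x0 y0 hxy0 B0.2.2.1 B0.2.1, k, z2])
    let c : G := ph X lw lm {x0, y0} y0 - ph X lw lm {x0, y0} x0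
    let s : ZMod 2 → G := fun v => if v = ps {x0, y0} x0 then c else 0
    have hph : ∀ e x, ph X (fun x => s (bw x) + lw x) (fun σ => s (bm σ) + lm σ) e x
        = s (ps e x) + ph X lw lm e x := by
      intro e x
      by_cases k : x ∈ X.A <;> simp only [ph, ps, k, if_true, if_false, add_assoc]
    refine ih _ ?_ (fun x => s (bw x) + lw x) (fun σ => s (bm σ) + lm σ)
      (fun x hx y hy sxy => ?_) rfl
    · rw [← hn]
      refine Set.ncard_lt_ncard ⟨fun e he => ?_, fun hh => ?_⟩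
      · obtain ⟨k1, k2, k3, x, hx, y, hy, hne⟩ := he
        by_contra hb
        have hxy : x ≠ y := fun h => hne (h ▸ rfl)
        have ee : {x, y} = e := eq_of_card (pair_sub hx hy) (by rw [k1.2, Finset.card_pair hxy])
        subst ee
        have h1 := ha0 _ hb
        rw [hps x y hxy k3 k2, z2e] at h1
        have h2 : ph X lw lm {x, y} x = ph X lw lm {x, y} y :=
          by_contra fun k => hb ⟨k1, k2, k3, x, hx, y, hy, k⟩
        exact hne (by rw [hph, hph, h1, h2])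
      · obtain ⟨-, -, -, x, hx, y, hy, hne⟩ := hh B0
        have h1 : s (ps {x0, y0} x0) + ph X lw lm {x0, y0} x0
            = s (ps {x0, y0} y0) + ph X lw lm {x0, y0} y0 := by
          simp only [s, c, if_true, hne0, if_false, zero_add, sub_add_cancel]
        rw [hph, hph] at hne
        simp only [Finset.mem_insert, Finset.mem_singleton] at hx hy
        rcases hx with rfl | rfl <;> rcases hy with rfl | rfl
        · exact hne rfl
        · exact hne h1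
        · exact hne h1.symm
        · exact hne rfl
    · simp only [b1 x ⟨hO.FK hx.1, hx.2⟩ y ⟨hO.FK hy.1, hy.2⟩ sxy, adm x hx y hy sxy, add_assoc]
  obtain ⟨lm, hlm⟩ := h
  exact main _ (fun _ => 0) lm hlm rfl

/-- component of `σ` in `W` -/
def cmp {V : Type*} (W : Set (Finset V)) (σ : Finset V) : Set (Finset V) :=
  {ρ | Relation.ReflTransGen (fun x y => x ∈ W ∧ y ∈ W ∧ (x ⊆ y ∨ y ⊆ x)) σ ρ}

section
variable {V : Type*} {W : Set (Finset V)} {σ ρ π : Finset V}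

theorem cmp_self : σ ∈ cmp W σ := Relation.ReflTransGen.refl

theorem cmp_sub (h : σ ∈ W) : cmp W σ ⊆ W := fun ρ hρ => by
  induction hρ with
  | refl => exact h
  | tail _ k _ => exact k.2.1

theorem cmp_step (h : σ ∈ W) (hρ : ρ ∈ cmp W σ) (hπ : π ∈ W) (s : ρ ⊆ π ∨ π ⊆ ρ) :
    π ∈ cmp W σ := Relation.ReflTransGen.tail hρ ⟨cmp_sub h hρ, hπ, s⟩

theorem cmp_eq (h : σ ∈ W) (hρ : ρ ∈ W) (s : σ ⊆ ρ) : cmp W σ = cmp W ρ :=
  Set.Subset.antisymm (fun _ k => Relation.ReflTransGen.head ⟨hρ, h, Or.inr s⟩ k)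
    fun _ k => Relation.ReflTransGen.head ⟨h, hρ, Or.inl s⟩ k

theorem cmp_conn : Conn sub (cmp W σ) := by
  refine ⟨⟨σ, cmp_self⟩, fun κ hκ => ?_⟩
  have key : ∀ x ∈ cmp W σ, (κ σ ↔ κ x) := fun x hx => by
    induction hx with
    | refl => rfl
    | tail k1 k2 ih =>
      rcases k2.2.2 with s | s
      · exact ih.trans (hκ _ k1 _ (Relation.ReflTransGen.tail k1 k2) s)
      · exact ih.trans (hκ _ (Relation.ReflTransGen.tail k1 k2) _ k1 s).symm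
  exact fun x hx y hy => (key x hx).symm.trans (key y hy)

end

/-- **TOP** -/
theorem top : TopStmt := by
  classical
  intro G _ X hO hL hH hC hess
  have ex : ∃ σ ∈ ZF X, ¬ Cob sub {ρ | ρ ∈ X.F ∧ ρ ∈ cmp (Zm X) σ} X.g := by
    by_contra hcon
    push Not at hcon
    have h1 : ∀ C : Set (Finset X.V), ∃ l : Finset X.V → G, (∃ σ ∈ ZF X, cmp (Zm X) σ = C) →
        ∀ x ∈ X.F, x ∈ C → ∀ y ∈ X.F, y ∈ C → x ⊆ y → l y = l x + X.g x y := by
      intro C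
      by_cases h : ∃ σ ∈ ZF X, cmp (Zm X) σ = C
      · obtain ⟨σ, hσ, rfl⟩ := h
        obtain ⟨l, hl⟩ := hcon σ hσ
        exact ⟨l, fun _ x k1 k2 y k3 k4 s => hl x ⟨k1, k2⟩ y ⟨k3, k4⟩ s⟩
      · exact ⟨0, fun k => absurd k h⟩
    choose l hl using h1
    refine hess (cob_Fg hO hL hH ⟨fun σ => l (cmp (Zm X) σ) σ, fun x hx y hy s => ?_⟩)
    have e := cmp_eq (W := Zm X) ⟨hO.FK hx.1, hx.2⟩ ⟨hO.FK hy.1, hy.2⟩ s
    simp only [← e]
    exact hl _ ⟨x, hx, rfl⟩ x hx.1 cmp_self y hy.1 (e ▸ cmp_self) s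
  obtain ⟨σ0, h0, hne⟩ := ex
  have z0 : σ0 ∈ Zm X := ⟨hO.FK h0.1, h0.2⟩
  set Q := cmp (Zm X) σ0 with hQ
  have QZ : Q ⊆ Zm X := cmp_sub z0
  let χ : X.V → ZMod 2 := fun x => if x ∈ X.A then 1 else 0
  let w : X.V → X.V → ZMod 2 := fun x y => if {x, y} ∈ Q then 1 else 0
  have w1 : ∀ σ ∈ Q, ∀ x ∈ σ, ∀ y ∈ σ, w x y = χ x + χ y := by
    intro σ hσ x hx y hy
    have hK := hO.cxK.down σ (QZ hσ).1 _ (pair_sub hx hy) (by simp)
    have hq : {x, y} ∈ Q ↔ Mix X {x, y} :=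
      ⟨fun k => (QZ k).2, fun k => cmp_step z0 hσ ⟨hK, k⟩ (Or.inr (pair_sub hx hy))⟩
    simp only [w, χ, hq, Mix, Mt, In]
    by_cases k1 : x ∈ X.A <;> by_cases k2 : y ∈ X.A <;> simp [k1, k2]
    decide
  have w0 : ∀ σ ∈ X.K, ∀ x ∈ σ, ∀ y ∈ σ, w x y ≠ 0 → σ ∈ Q := by
    intro σ hσ x hx y hy hw
    have hq : {x, y} ∈ Q := by_contra fun k => hw (if_neg k)
    exact cmp_step z0 hq ⟨hσ, (QZ hq).2.mono (pair_sub hx hy)⟩ (Or.inl (pair_sub hx hy))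
  have mx : ∀ σ ∈ X.K, (Mx w σ ↔ σ ∈ Q) := fun σ hσ =>
    ⟨fun ⟨x, hx, y, hy, h⟩ => w0 σ hσ x hx y hy h, fun h => by
      obtain ⟨a, ha, x, hx, hA, hx'⟩ := (QZ h).2.ex
      exact ⟨a, ha, x, hx, by rw [w1 σ h a ha x hx]; simp [χ, hA, hx']⟩⟩
  have eK : Sf X.K w = Q := Set.ext fun σ =>
    ⟨fun h => (mx σ h.1).1 h.2, fun h => ⟨(QZ h).1, (mx σ (QZ h).1).2 h⟩⟩
  have eF : Sf X.F w = {ρ | ρ ∈ X.F ∧ ρ ∈ Q} := Set.ext fun σ =>
    ⟨fun h => ⟨h.1, (mx σ (hO.FK h.1)).1 h.2⟩, fun h => ⟨h.1, (mx σ (hO.FK h.1)).2 h.2⟩⟩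
  refine ⟨w, fun σ hσ x hx y hy z hz => ?_, fun σ hσ x hx y hy h => ?_, eK ▸ cmp_conn, ?_, ?_,
    eF ▸ hne⟩
  · by_cases hq : σ ∈ Q
    · rw [w1 σ hq x hx z hz, w1 σ hq x hx y hy, w1 σ hq y hy z hz]
      generalize χ x = p, χ y = q, χ z = r
      revert p q r; decide
    · have k : ∀ x ∈ σ, ∀ y ∈ σ, w x y = 0 := fun x hx y hy =>
        by_contra fun h => hq (w0 σ hσ x hx y hy h)
      rw [k x hx z hz, k x hx y hy, k y hy z hz, add_zero]
  · rw [w1 σ (w0 σ hσ x hx y hy h) x hx y hy] at h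
    by_contra k
    rw [not_or] at k
    simp [χ, k.1, k.2] at h
  · rw [eK]
    intro c hc
    obtain ⟨l, hl⟩ := h0_Zm hO hL hH hC (fun x y => if x ∈ Q then c x y else 0) (by
      intro x hx y hy z hz s1 s2
      by_cases hq : x ∈ Q
      · have k1 := cmp_step z0 hq hy (Or.inl s1)
        have k2 := cmp_step z0 k1 hz (Or.inl s2)
        simp only [hq, hQ ▸ k1, if_true]
        exact hc x hq y k1 z k2 s1 s2
      · have k1 : y ∉ Q := fun k => hq (cmp_step z0 k hx (Or.inr s1))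
        simp [hq, k1])
    exact ⟨l, fun x hx y hy s => by simpa [hx] using hl x (QZ hx) y (QZ hy) s⟩
  · rw [eF]
    refine ⟨⟨σ0, h0.1, cmp_self⟩, fun κ hκ => ?_⟩
    obtain ⟨bw, bm, b1, b2, b3⟩ := coh0 hO hL hH (α := fun e => if e ∈ Q ∧ κ e then 1 else 0)
      fun t ht hF hm => by
        by_cases hq : t ∈ Q
        · obtain ⟨x, y, hxy, h⟩ := two_mix hO ht (QZ hq).2
          have val : ∀ e, (Sx X 2 e ∧ Mix X e) ∧ e ⊆ t →
              (if e ∈ Q ∧ κ e then (1 : ZMod 2) else 0) = if κ t then 1 else 0 := fun e k => by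
            have k1 : e ∈ Q := cmp_step z0 hq ⟨k.1.1.1, k.1.2⟩ (Or.inr k.2)
            have k2 := hO.cxF.down t hF e k.2 (Finset.card_pos.1 (by rw [k.1.1.2]; omega))
            simp only [k1, true_and, hκ e ⟨k2, k1⟩ t ⟨hF, hq⟩ k.2]
          rw [sm_drop (Q := Mix X) fun e _ k => if_neg fun j => k (QZ j.1).2,
            sm_congr (Q := fun e => (Sx X 2 e ∧ Mix X e) ∧ e ⊆ t)
              (fun e => ⟨fun k => ⟨⟨k.1.1.1, k.2⟩, k.1.2⟩, fun k => ⟨⟨⟨k.1.1, k.1.2.1⟩, k.2⟩, k.1.2⟩⟩)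
              val, sm_const_two ⟨x, y, hxy, h⟩]
        · exact sm_zero fun e k => if_neg fun j =>
            hq (cmp_step z0 j.1 ⟨ht.1, (QZ j.1).2.mono k.2⟩ (Or.inl k.2))
    have same : ∀ σ ∈ X.F, ∀ a ∈ σ, ∀ b ∈ σ, a ∈ X.A → b ∈ X.A → bw a = bw b := by
      intro σ hσ a ha b hb k1 k2
      by_cases hab : a = b
      · rw [hab]
      have := b2 a k1 b k2 hab (hO.cxF.down σ hσ _ (pair_sub ha hb) (by simp))
      rw [if_neg fun j => (QZ j.1).2.2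
        (fun u hu => by simp at hu; rcases hu with rfl | rfl <;> assumption)] at this
      exact z2e.1 this.symm
    have cw : ∀ σ ∈ X.Fg, ∀ ρ ∈ X.Fg, ∀ a ∈ σ, a ∈ X.A → ∀ b ∈ ρ, b ∈ X.A → bw a = bw b := by
      intro σ hσ ρ hρ a ha k1 b hb k2
      have key := hC.2 (fun π => ∃ u ∈ π, u ∈ X.A ∧ bw u = bw a) ?_ σ hσ ρ hρ
      · obtain ⟨u, hu, j1, j2⟩ := key.1 ⟨a, ha, k1, rfl⟩
        rw [← j2, same ρ hρ.1 u hu b hb j1 k2]
      · intro x hx y hy s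
        constructor
        · rintro ⟨u, hu, j⟩
          exact ⟨u, s hu, j⟩
        · rintro ⟨u, hu, j1, j2⟩
          obtain ⟨v, hv, hA⟩ := hx.2
          exact ⟨v, hv, hA, (same y hy.1 v (s hv) u hu hA j1).trans j2⟩
    have cm : ∀ σ ∈ Q, bm σ = bm σ0 := fun σ hσ =>
      ((cmp_conn).2 (fun π => bm π = bm σ0)
        (fun x hx y hy s => by rw [b1 x (QZ hx) y (QZ hy) s]) σ0 cmp_self σ hσ).1 rfl
    obtain ⟨a0, ha0, k0⟩ := h0.2.1
    have fin : ∀ σ ∈ X.F, σ ∈ Q → (κ σ ↔ bw a0 + bm σ0 = 1) := by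
      intro σ hσ hq
      obtain ⟨a, ha, x, hx, hA, hx'⟩ := (QZ hq).2.ex
      have hF := hO.cxF.down σ hσ _ (pair_sub ha hx) (by simp)
      have k1 : {a, x} ∈ Q := cmp_step z0 hq ⟨hO.FK hF, mix_pair hA hx'⟩ (Or.inr (pair_sub ha hx))
      have := b3 a hA x hx' hF
      rw [cm _ k1, cw σ ⟨hσ, a, ha, hA⟩ σ0 ⟨h0.1, h0.2.1⟩ a ha hA a0 ha0 k0] at this
      rw [← this, ← hκ _ ⟨hF, k1⟩ σ ⟨hσ, hq⟩ (pair_sub ha hx)]
      by_cases k : κ {a, x} <;> simp [k, k1]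
    exact fun x hx y hy => (fin x hx.1 hx.2).trans (fin y hy.1 hy.2).symm

end Crest.Agent.X212.Lt44
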