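import Crest.Agent.X212.Lt44.Top

/-!
# Combinatorial loop theorem: the TOWER of folded double covers (helper44)
-/

set_option autoImplicit false

namespace Crest.Agent.X212.Lt44

open Crest.Agent.X212.Dsc37

section Iso
variable {α β : Type*} {r : α → α → Prop} {r' : β → β → Prop} {W : Set α} {W' : Set β}
  {f : α → β}

/-- an isomorphism of relations `W → W'` -/
def RIso (f : α → β) (r : α → α → Prop) (r' : β → β → Prop) (W : Set α) (W' : Set β) : Prop :=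
  Set.BijOn f W W' ∧ ∀ x ∈ W, ∀ y ∈ W, (r x y ↔ r' (f x) (f y))

theorem RIso.inv (h : RIso f r r' W W') (hn : Nonempty α) :
    ∃ k : β → α, (∀ y ∈ W', k y ∈ W ∧ f (k y) = y) ∧ ∀ x ∈ W, k (f x) = x :=
  ⟨Function.invFunOn f W, fun y hy => ⟨Function.invFunOn_mem (h.1.surjOn hy),
    Function.invFunOn_eq (h.1.surjOn hy)⟩, fun _ hx => h.1.injOn.leftInvOn_invFunOn hx⟩

theorem RIso.conn (h : RIso f r r' W W') (hc : Conn r' W') : Conn r W := by
  obtain ⟨y0, hy0⟩ := hc.1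
  obtain ⟨x0, hx0, -⟩ := h.1.surjOn hy0
  obtain ⟨k, k1, k2⟩ := h.inv ⟨x0⟩
  refine ⟨⟨x0, hx0⟩, fun κ hκ x hx y hy => ?_⟩
  have := hc.2 (fun y => κ (k y)) (fun a ha b hb hr => hκ _ (k1 a ha).1 _ (k1 b hb).1
    ((h.2 _ (k1 a ha).1 _ (k1 b hb).1).2 (by rwa [(k1 a ha).2, (k1 b hb).2])))
    (f x) (h.1.mapsTo hx) (f y) (h.1.mapsTo hy)
  simpa only [k2 x hx, k2 y hy] using this

theorem RIso.h0 (h : RIso f r r' W W') (hn : Nonempty α) (hc : H0 r' W') : H0 r W := by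
  obtain ⟨k, k1, k2⟩ := h.inv hn
  intro c hcc
  have rk : ∀ a ∈ W', ∀ b ∈ W', r' a b → r (k a) (k b) := fun a ha b hb hr =>
    (h.2 _ (k1 a ha).1 _ (k1 b hb).1).2 (by rwa [(k1 a ha).2, (k1 b hb).2])
  obtain ⟨l, hl⟩ := hc (fun a b => c (k a) (k b)) fun a ha b hb e he r1 r2 =>
    hcc _ (k1 a ha).1 _ (k1 b hb).1 _ (k1 e he).1 (rk a ha b hb r1) (rk b hb e he r2)
  refine ⟨fun x => l (f x), fun x hx y hy hr => ?_⟩
  have := hl (f x) (h.1.mapsTo hx) (f y) (h.1.mapsTo hy) ((h.2 x hx y hy).1 hr)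
  simpa only [k2 x hx, k2 y hy] using this

theorem RIso.ncard (h : RIso f r r' W W') : W.ncard = W'.ncard := by
  rw [← h.1.image_eq, Set.InjOn.ncard_image h.1.injOn]

end Iso

section Cover
variable {G : Type} {U B : Dat G}

theorem dc_card (d : DC U B) {σ : Finset U.V} (h : σ ∈ U.K) : (σ.image d.p).card = σ.card :=
  Finset.card_image_of_injOn (d.inj σ h)

theorem dc_refl (d : DC U B) (hU : Cx U.K) {a : U.V} (ha : a ∈ d.E) {σ ρ : Finset U.V}
    (hσ : σ ∈ U.K) (hρ : ρ ∈ U.K) (k1 : a ∈ σ) (k2 : a ∈ ρ) :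
    σ ⊆ ρ ↔ σ.image d.p ⊆ ρ.image d.p := by
  refine ⟨Finset.image_subset_image, fun h => ?_⟩
  have m : a ∈ ρ.filter (fun x => d.p x ∈ σ.image d.p) :=
    Finset.mem_filter.2 ⟨k2, Finset.mem_image_of_mem _ k1⟩
  rw [d.uniq a ha σ hσ _ (hU.down ρ hρ _ (Finset.filter_subset _ _) ⟨a, m⟩) k1 m ?_]
  · exact Finset.filter_subset _ _
  · ext y
    constructor
    · intro hy
      obtain ⟨x, hx, rfl⟩ := Finset.mem_image.1 (h hy)
      exact Finset.mem_image_of_mem _ (Finset.mem_filter.2 ⟨hx, hy⟩)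
    · intro hy
      obtain ⟨x, hx, rfl⟩ := Finset.mem_image.1 hy
      exact (Finset.mem_filter.1 hx).2

theorem dc_iso (d : DC U B) (hU : Cx U.K) {a : U.V} (ha : a ∈ d.E) {W : Set (Finset U.V)}
    {W' : Set (Finset B.V)} (hW : ∀ ρ ∈ W, ρ ∈ U.K ∧ a ∈ ρ) (hW' : ∀ s ∈ W', s ∈ B.K ∧ d.p a ∈ s)
    (h : ∀ ρ ∈ U.K, a ∈ ρ → (ρ ∈ W ↔ ρ.image d.p ∈ W')) :
    RIso (Finset.image d.p) sub sub W W' := by
  refine ⟨⟨fun ρ hρ => (h ρ (hW ρ hρ).1 (hW ρ hρ).2).1 hρ, fun σ hσ ρ hρ e =>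
    d.uniq a ha σ (hW σ hσ).1 ρ (hW ρ hρ).1 (hW σ hσ).2 (hW ρ hρ).2 e, fun s hs => ?_⟩,
    fun σ hσ ρ hρ => dc_refl d hU ha (hW σ hσ).1 (hW ρ hρ).1 (hW σ hσ).2 (hW ρ hρ).2⟩
  obtain ⟨σ, k1, k2, rfl⟩ := d.lift a ha s (hW' s hs).1 (hW' s hs).2
  exact ⟨σ, (h σ k1 k2).2 hs, rfl⟩

theorem dc_mt (d : DC U B) {σ : Finset U.V} (h : Mt U.A σ) : Mt B.A (σ.image d.p) := by
  obtain ⟨a, ha, hA⟩ := h
  exact ⟨d.p a, Finset.mem_image_of_mem _ ha, d.pE a (d.AE hA)⟩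

theorem dc_ok [AddGroup G] (d : DC U B) (hB : B.OK) (cK : Cx U.K) (cF : Cx U.F) (FK : U.F ⊆ U.K)
    (dF : ∀ σ ∈ U.F, σ.card ≤ 3) : U.OK := by
  have tet : ∀ t ∈ U.K, Mt U.A t → {T | T ∈ U.K ∧ T.card = 4 ∧ t ⊆ T}.ncard
      = {T | T ∈ B.K ∧ T.card = 4 ∧ t.image d.p ⊆ T}.ncard := by
    rintro t ht ⟨a, ha, hA⟩
    refine (dc_iso d cK (d.AE hA) (fun ρ k => ⟨k.1, k.2.2 ha⟩)
      (fun s k => ⟨k.1, k.2.2 (Finset.mem_image_of_mem _ ha)⟩) fun ρ k1 k2 => ?_).ncard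
    simp only [Set.mem_ofPred_eq, k1, d.pK ρ k1, dc_card d k1, dc_refl d cK (d.AE hA) ht k1 ha k2]
  have mE : ∀ σ, Mt U.A σ → Mt d.E σ := fun σ ⟨a, ha, hA⟩ => ⟨a, ha, d.AE hA⟩
  refine ⟨cK, cF, FK, fun σ h => dc_card d h ▸ hB.dimK _ (d.pK σ h), dF, fun t ht hc hm hF => ?_,
    fun t ht hc hm => ?_, fun e he hc hm => ?_, fun x hx y hy z hz s1 s2 => ?_⟩
  · rw [tet t ht hm]
    exact hB.triI _ (d.pK t ht) ((dc_card d ht).trans hc) (dc_mt d hm)
      fun k => hF ((d.bd t ht (mE t hm)).2 k)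
  · rw [tet t (FK ht) hm]
    exact hB.triB _ ((d.bd t (FK ht) (mE t hm)).1 ht) ((dc_card d (FK ht)).trans hc) (dc_mt d hm)
  · rw [← hB.edgB _ ((d.bd e (FK he) (mE e hm)).1 he) ((dc_card d (FK he)).trans hc) (dc_mt d hm)]
    obtain ⟨a, ha, hA⟩ := hm
    refine (dc_iso d cK (d.AE hA) (fun ρ k => ⟨FK k.1, k.2.2 ha⟩)
      (fun s k => ⟨hB.FK k.1, k.2.2 (Finset.mem_image_of_mem _ ha)⟩) fun ρ k1 k2 => ?_).ncard
    simp only [Set.mem_ofPred_eq, d.bd ρ k1 ⟨a, k2, d.AE hA⟩, dc_card d k1,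
      dc_refl d cK (d.AE hA) (FK he) k1 ha k2]
  · rw [d.geq x hx.1 z hz.1 (mE x hx.2) (s1.trans s2), d.geq x hx.1 y hy.1 (mE x hx.2) s1,
      d.geq y hy.1 z hz.1 (mE y hy.2) s2]
    exact hB.coc _ ⟨(d.bd x (FK hx.1) (mE x hx.2)).1 hx.1, dc_mt d hx.2⟩
      _ ⟨(d.bd y (FK hy.1) (mE y hy.2)).1 hy.1, dc_mt d hy.2⟩
      _ ⟨(d.bd z (FK hz.1) (mE z hz.2)).1 hz.1, dc_mt d hz.2⟩
      (Finset.image_subset_image s1) (Finset.image_subset_image s2)

theorem dc_loc (d : DC U B) (hB : B.Loc) (BFK : B.F ⊆ B.K) (cK : Cx U.K) (FK : U.F ⊆ U.K) :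
    U.Loc := by
  have ne : ∀ σ ∈ U.K, ∀ ρ ∈ U.K, σ ⊆ ρ → (ρ ≠ σ ↔ ρ.image d.p ≠ σ.image d.p) := by
    intro σ hσ ρ hρ s
    refine not_congr ⟨fun h => h ▸ rfl, fun h => (eq_of_card s ?_).symm⟩
    rw [← dc_card d hρ, ← dc_card d hσ, h]
  have ne1 : ∀ (a : U.V), ∀ ρ ∈ U.K, a ∈ ρ → (ρ ≠ {a} ↔ ρ.image d.p ≠ {d.p a}) := by
    intro a ρ hρ ha
    rw [← Finset.image_singleton]
    exact ne _ (cK.down ρ hρ _ (Finset.singleton_subset_iff.2 ha) (by simp)) ρ hρ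
      (Finset.singleton_subset_iff.2 ha)
  refine ⟨fun σ hσ hm => ?_, fun e he hc hm => ?_, fun a ha => ?_, fun a ha hF => ?_⟩
  · obtain ⟨T, k1, k2, k3⟩ := hB.pure _ (d.pK σ hσ) (dc_mt d hm)
    obtain ⟨a, ha, hA⟩ := hm
    obtain ⟨T', j1, j2, rfl⟩ := d.lift a (d.AE hA) T k1 (k3 (Finset.mem_image_of_mem _ ha))
    exact ⟨T', j1, dc_card d j1 ▸ k2, (dc_refl d cK (d.AE hA) hσ j1 ha j2).2 k3⟩
  · have hc' := hB.edge _ (d.pK e he) ((dc_card d he).trans hc) (dc_mt d hm)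
    obtain ⟨a, ha, hA⟩ := hm
    refine (dc_iso d cK (d.AE hA) (fun ρ k => ⟨k.1, k.2.1 ha⟩)
      (fun s k => ⟨k.1, k.2.1 (Finset.mem_image_of_mem _ ha)⟩) fun ρ k1 k2 => ?_).conn hc'
    simp only [Set.mem_ofPred_eq, k1, d.pK ρ k1, ← dc_refl d cK (d.AE hA) he k1 ha k2, true_and]
    exact and_congr_right fun s => ne e he ρ k1 s
  · refine (dc_iso d cK (d.AE ha) (fun ρ k => ⟨k.1, k.2.1⟩) (fun s k => ⟨k.1, k.2.1⟩)
      fun ρ k1 k2 => ?_).h0 ⟨∅⟩ (hB.vert _ (d.pE a (d.AE ha)))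
    simp only [Set.mem_ofPred_eq, k1, k2, d.pK ρ k1, Finset.mem_image_of_mem _ k2, true_and]
    exact ne1 a ρ k1 k2
  · have h1 := (d.bd _ (FK hF) ⟨a, by simp, d.AE ha⟩).1 hF
    rw [Finset.image_singleton] at h1
    refine (dc_iso d cK (d.AE ha) (fun ρ k => ⟨FK k.1, k.2.1⟩) (fun s k => ⟨BFK k.1, k.2.1⟩)
      fun ρ k1 k2 => ?_).conn (hB.vertF _ (d.pE a (d.AE ha)) h1)
    simp only [Set.mem_ofPred_eq, k2, d.bd ρ k1 ⟨a, k2, d.AE ha⟩, Finset.mem_image_of_mem _ k2,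
      true_and]
    exact and_congr_right fun _ => ne1 a ρ k1 k2

end Cover

section Fold
variable {G : Type} (X : Dat G) (θ : X.V → X.V → ZMod 2)

/-- the sheets are compatible with `θ` -/
def Sh (σ : Finset (X.V × ZMod 2)) : Prop :=
  (∀ u ∈ σ, u.1 ∉ X.A → u.2 = 0) ∧
    ∀ u ∈ σ, ∀ v ∈ σ, u.1 ∈ X.A → v.1 ∈ X.A → u.2 + v.2 = θ u.1 v.1

/-- the folded double cover -/
abbrev fold (A' : Set (X.V × ZMod 2)) : Dat G where
  V := X.V × ZMod 2
  fin := inferInstance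
  dec := inferInstance
  K := {σ | σ.image Prod.fst ∈ X.K ∧ Sh X θ σ}
  F := {σ | σ.image Prod.fst ∈ X.F ∧ Sh X θ σ}
  A := A'
  g := fun σ ρ => X.g (σ.image Prod.fst) (ρ.image Prod.fst)

variable {X θ}

theorem Sh.mono {σ ρ : Finset (X.V × ZMod 2)} (h : Sh X θ σ) (s : ρ ⊆ σ) : Sh X θ ρ :=
  ⟨fun u hu => h.1 u (s hu), fun u hu v hv => h.2 u (s hu) v (s hv)⟩

theorem fold_cx {S : Set (Finset X.V)} (h : Cx S) :
    Cx {σ : Finset (X.V × ZMod 2) | σ.image Prod.fst ∈ S ∧ Sh X θ σ} :=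
  ⟨fun σ k => Finset.image_nonempty.1 (h.ne _ k.1), fun _ k ρ s n =>
    ⟨h.down _ k.1 _ (Finset.image_subset_image s) (Finset.image_nonempty.2 n), k.2.mono s⟩⟩

/-- `θ` is an edge cocycle inside `A` -/
def EC (X : Dat G) (θ : X.V → X.V → ZMod 2) : Prop :=
  ∀ σ ∈ X.K, ∀ x ∈ σ, ∀ y ∈ σ, ∀ z ∈ σ, x ∈ X.A → y ∈ X.A → z ∈ X.A → θ x z = θ x y + θ y z

theorem fold_inj (hθ : EC X θ) {σ : Finset (X.V × ZMod 2)} (h1 : σ.image Prod.fst ∈ X.K)
    (h2 : Sh X θ σ) : Set.InjOn Prod.fst (σ : Set (X.V × ZMod 2)) := by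
  intro u hu v hv e
  refine Prod.ext e ?_
  by_cases hA : u.1 ∈ X.A
  · have m := Finset.mem_image_of_mem Prod.fst (Finset.mem_coe.1 hu)
    have k := h2.2 u hu v hv hA (e ▸ hA)
    rw [← e, hθ _ h1 _ m _ m _ m hA hA hA, z2] at k
    exact z2e.1 k
  · rw [h2.1 u hu hA, h2.1 v hv (e ▸ hA)]

open Classical in
/-- the folded cover is a double cover, etale over `A` -/
noncomputable def fold_dc (hK : Cx X.K) (hθ : EC X θ) {A' : Set (X.V × ZMod 2)}
    (hA : ∀ u ∈ A', u.1 ∈ X.A) : DC (fold X θ A') X where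
  p := Prod.fst
  τ := fun u => if u.1 ∈ X.A then (u.1, u.2 + 1) else u
  E := {u | u.1 ∈ X.A}
  ττ := fun u => by
    by_cases h : u.1 ∈ X.A
    · simp only [h, if_true, add_assoc, z2, add_zero]
    · simp only [h, if_false]
  pτ := fun u => by by_cases h : u.1 ∈ X.A <;> simp only [h, if_true, if_false]
  τE := fun u hu => by
    have h : u.1 ∈ X.A := hu
    simp only [h, if_true, Set.mem_ofPred_eq]
  AE := hA
  pE := fun _ h => h
  pK := fun _ h => h.1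
  τK := fun σ h => by
    refine ⟨?_, ?_, ?_⟩
    · have := h.1
      rw [Finset.image_image]
      convert this using 2
      funext u
      by_cases k : u.1 ∈ X.A <;> simp only [k, if_true, if_false, Function.comp]
    · intro u hu
      obtain ⟨u, hu', rfl⟩ := Finset.mem_image.1 hu
      by_cases k : u.1 ∈ X.A <;> simp only [k, if_true, if_false]
      · exact fun j => absurd trivial j
      · exact fun _ => h.2.1 u hu' k
    · intro u hu v hv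
      obtain ⟨u, hu', rfl⟩ := Finset.mem_image.1 hu
      obtain ⟨v, hv', rfl⟩ := Finset.mem_image.1 hv
      by_cases k : u.1 ∈ X.A <;> by_cases j : v.1 ∈ X.A <;>
        simp only [k, j, if_true, if_false, IsEmpty.forall_iff, implies_true, forall_const]
      rw [← h.2.2 u hu' v hv' k j]
      generalize u.2 = p, v.2 = q
      revert p q; decide
  inj := fun _ h => fold_inj hθ h.1 h.2
  free := fun u hu e => by
    have h : u.1 ∈ X.A := hu
    simp only [h, if_true] at e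
    have := congrArg Prod.snd e
    simp at this
  fib := fun u hu v _ e => by
    have h : u.1 ∈ X.A := hu
    simp only [h, if_true]
    have : ∀ p q : ZMod 2, p = q ∨ p = q + 1 := by decide
    exact (this v.2 u.2).imp (fun k => Prod.ext e k) fun k => Prod.ext e k
  lift := fun u hu s hs hm => by
    have h : u.1 ∈ X.A := hu
    have e : (s.image fun x => (x, if x ∈ X.A then u.2 + θ u.1 x else 0)).image Prod.fst = s := by
      rw [Finset.image_image]; exact Finset.image_id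
    refine ⟨s.image fun x => (x, if x ∈ X.A then u.2 + θ u.1 x else 0), ⟨e.symm ▸ hs, ?_, ?_⟩,
      Finset.mem_image.2 ⟨u.1, hm, ?_⟩, e⟩
    · intro v hv k
      obtain ⟨x, -, rfl⟩ := Finset.mem_image.1 hv
      exact if_neg k
    · intro v hv w hw k j
      obtain ⟨x, hx, rfl⟩ := Finset.mem_image.1 hv
      obtain ⟨y, hy, rfl⟩ := Finset.mem_image.1 hw
      simp only at k j ⊢
      rw [if_pos k, if_pos j, hθ s hs _ hm x hx y hy h k j]
      generalize u.2 = p, θ u.1 x = q, θ x y = r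
      revert p q r; decide
    · rw [if_pos h, hθ s hs _ hm _ hm _ hm h h h, z2, add_zero]
  uniq := fun u hu σ hσ ρ hρ k1 k2 e => by
    have h : u.1 ∈ X.A := hu
    have key : ∀ σ ρ : Finset (X.V × ZMod 2), Sh X θ σ → Sh X θ ρ → u ∈ σ → u ∈ ρ →
        σ.image Prod.fst = ρ.image Prod.fst → σ ⊆ ρ := by
      intro σ ρ s1 s2 k1 k2 e v hv
      obtain ⟨w, hw, ew⟩ := Finset.mem_image.1 (e ▸ Finset.mem_image_of_mem Prod.fst hv)
      have : w = v := by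
        refine Prod.ext ew ?_
        by_cases j : v.1 ∈ X.A
        · have a1 := s1.2 u k1 v hv h j
          have a2 := s2.2 u k2 w hw h (ew ▸ j)
          rw [ew, ← a1] at a2
          exact add_left_cancel a2
        · rw [s1.1 v hv j, s2.1 w hw (ew ▸ j)]
      exact this ▸ hw
    exact Finset.Subset.antisymm (key σ ρ hσ.2 hρ.2 k1 k2 e) (key ρ σ hρ.2 hσ.2 k2 k1 e.symm)
  bd := fun _ h _ => ⟨fun k => k.1, fun k => ⟨k, h.2⟩⟩
  geq := fun _ _ _ _ _ _ => rfl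

end Fold

variable {G : Type} [AddGroup G]

/-- the singular disc lifts -/
def liftDom {X : Dat G} {θ : X.V → X.V → ZMod 2} (D : Dom X) (l : D.ι → ZMod 2)
    (hl : ∀ s ∈ D.L, ∀ i ∈ s, ∀ j ∈ s, θ (D.f i) (D.f j) = l i + l j) :
    Dom (fold X θ (Set.range fun i => (D.f i, l i))) := by
  letI := D.dec
  have sh : ∀ s ∈ D.L, Sh X θ (s.image fun i => (D.f i, l i)) := fun s hs =>
    ⟨fun u hu k => by
      obtain ⟨i, -, rfl⟩ := Finset.mem_image.1 hu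
      exact absurd (D.fA i) k, fun u hu v hv _ _ => by
      obtain ⟨i, hi, rfl⟩ := Finset.mem_image.1 hu
      obtain ⟨j, hj, rfl⟩ := Finset.mem_image.1 hv
      exact (hl s hs i hi j hj).symm⟩
  have e2 : ∀ i j, ({(D.f i, l i), (D.f j, l j)} : Finset (X.V × ZMod 2)).image Prod.fst
      = {D.f i, D.f j} := fun i j => by simp
  have e1 : ∀ i, ({(D.f i, l i)} : Finset (X.V × ZMod 2)).image Prod.fst = {D.f i} :=
    fun i => by simp
  have f2 : ∀ i j, {i, j} ∈ D.L → (({(D.f i, l i), (D.f j, l j)} : Finset (X.V × ZMod 2)) ∈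
      (fold X θ (Set.range fun i => (D.f i, l i))).F ↔ {D.f i, D.f j} ∈ X.F) := fun i j h =>
    ⟨fun k => e2 i j ▸ k.1, fun k => ⟨(e2 i j).symm ▸ k, by simpa using sh _ h⟩⟩
  have f1 : ∀ i, (({(D.f i, l i)} : Finset (X.V × ZMod 2)) ∈
      (fold X θ (Set.range fun i => (D.f i, l i))).F ↔ {D.f i} ∈ X.F) := fun i =>
    ⟨fun k => e1 i ▸ k.1, fun k => ⟨(e1 i).symm ▸ k, by simpa using sh _ (D.vtx i)⟩⟩
  exact
  { ι := D.ι
    fin := D.fin
    dec := D.dec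
    L := D.L
    f := fun i => (D.f i, l i)
    vtx := D.vtx
    simp := fun s hs => ⟨by
      have := D.simp s hs
      rw [Finset.image_image]
      exact this, sh s hs⟩
    fA := fun i => ⟨i, rfl⟩
    onto := fun _ h => h
    h1 := D.h1
    connI := by
      have h := D.connI
      refine ⟨h.1.imp fun i hi => (f1 i).2 hi, fun κ hκ x hx y hy => ?_⟩
      exact h.2 κ (fun i hi j hj r => hκ i ((f1 i).2 hi) j ((f1 j).2 hj)
        ⟨r.1, (f2 i j r.1).2 r.2⟩) x ((f1 x).1 hx) y ((f1 y).1 hy)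
    essI := fun ⟨m, hm⟩ => D.essI ⟨m, fun i j h k => by
      have := hm i j h ((f2 i j h).2 k)
      simpa only [fold, e1, e2] using this⟩ }

theorem dom_conn {X : Dat G} (hO : X.OK) (D : Dom X) : Conn sub X.Fg := by
  obtain ⟨⟨i0, h0⟩, h⟩ := D.connI
  refine ⟨⟨{D.f i0}, h0, D.f i0, by simp, D.fA i0⟩, fun κ hκ => ?_⟩
  have v : ∀ i, {D.f i} ∈ X.F → {D.f i} ∈ X.Fg := fun i k => ⟨k, D.f i, by simp, D.fA i⟩
  have key := h (fun i => κ {D.f i}) fun i hi j hj r =>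
    (hκ _ (v i hi) _ ⟨r.2, D.f i, by simp, D.fA i⟩ (by simp [sub])).trans
      (hκ _ (v j hj) _ ⟨r.2, D.f i, by simp, D.fA i⟩ (by simp [sub])).symm
  have red : ∀ σ ∈ X.Fg, ∃ i, {D.f i} ∈ X.F ∧ (κ {D.f i} ↔ κ σ) := by
    rintro σ ⟨hσ, a, ha, hA⟩
    obtain ⟨i, rfl⟩ := D.onto a hA
    have k := hO.cxF.down σ hσ _ (Finset.singleton_subset_iff.2 ha) (by simp)
    exact ⟨i, k, hκ _ (v i k) σ ⟨hσ, _, ha, hA⟩ (Finset.singleton_subset_iff.2 ha)⟩
  intro x hx y hy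
  obtain ⟨i, hi, e⟩ := red x hx
  obtain ⟨j, hj, e'⟩ := red y hy
  exact e.symm.trans ((key i hi j hj).trans e')

theorem dom_ess {X : Dat G} (hO : X.OK) (D : Dom X) : ¬ Cob sub X.Fg X.g := by
  rintro ⟨l, hl⟩
  refine D.essI ⟨fun i => l {D.f i}, fun i j _ k => ?_⟩
  have m : {D.f i, D.f j} ∈ X.Fg := ⟨k, D.f i, by simp, D.fA i⟩
  rw [← hl _ ⟨hO.cxF.down _ k _ (by simp) (by simp), D.f i, by simp, D.fA i⟩ _ m (by simp [sub]),
    ← hl _ ⟨hO.cxF.down _ k _ (by simp) (by simp), D.f j, by simp, D.fA j⟩ _ m (by simp [sub])]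

/-- the edges inside `A` -/
def Eg (X : Dat G) : Set (Finset X.V) := {e | Sx X 2 e ∧ In X e}

/-- **TOWER** -/
theorem tower : TowerStmt := by
  classical
  intro h1 h2 h3 h4 G _ X0 hO0 hL0 D0
  have main : ∀ n m : ℕ, ∀ (X : Dat G), X.OK → X.Loc → ∀ D : Dom X,
      Nat.card D.ι - X.A.ncard = n → (Eg X).ncard = m → ∃ n, (X.subN n).HasDisc := by
    intro n
    induction n using Nat.strong_induction_on with
    | _ n ihn =>
    intro m
    induction m using Nat.strong_induction_on with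
    | _ m ihm =>
    intro X hO hL D hn hm
    by_cases hH : H1On X.K X.A
    · exact ⟨0, h4 G X hO hL hH (dom_conn hO D) (dom_ess hO D)⟩
    simp only [H1On, not_forall] at hH
    obtain ⟨θ, hθ, hnt⟩ := hH
    let _ := D.dec
    let _ := D.fin
    obtain ⟨l, hl⟩ := D.h1 (fun i j => θ (D.f i) (D.f j)) fun s hs i hi j hj k hk _ _ _ =>
      hθ _ (D.simp s hs) _ (Finset.mem_image_of_mem _ hi) _ (Finset.mem_image_of_mem _ hj) _
        (Finset.mem_image_of_mem _ hk) (D.fA i) (D.fA j) (D.fA k)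
    let A' : Set (X.V × ZMod 2) := Set.range fun i => (D.f i, l i)
    have hA : ∀ u ∈ A', u.1 ∈ X.A := by
      rintro _ ⟨i, rfl⟩; exact D.fA i
    let d := fold_dc hO.cxK hθ hA
    have FK : (fold X θ A').F ⊆ (fold X θ A').K := fun σ k => ⟨hO.FK k.1, k.2⟩
    have hO' : (fold X θ A').OK := dc_ok d hO (fold_cx hO.cxK) (fold_cx hO.cxF) FK fun σ k =>
      dc_card d (FK k) ▸ hO.dimF _ k.1
    have hL' : (fold X θ A').Loc := dc_loc d hL hO.FK (fold_cx hO.cxK) FK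
    let D' : Dom (fold X θ A') := liftDom D l fun s hs i hi j hj => hl s hs i hi j hj trivial trivial
    suffices h : ∃ n, ((fold X θ A').subN n).HasDisc by
      obtain ⟨k, hk⟩ := h
      exact ⟨k + 2, desc_iter h1 h2 h3 hO' hO d hk⟩
    have im : Prod.fst '' A' = X.A := by
      ext a
      constructor
      · rintro ⟨u, hu, rfl⟩; exact hA u hu
      · intro ha
        obtain ⟨i, rfl⟩ := D.onto a ha
        exact ⟨_, ⟨i, rfl⟩, rfl⟩
    have le1 : A'.ncard ≤ Nat.card D.ι := by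
      have := Set.ncard_image_le (f := fun i => (D.f i, l i)) (s := Set.univ)
      rwa [Set.image_univ, Set.ncard_univ] at this
    have le2 : X.A.ncard ≤ A'.ncard := im ▸ Set.ncard_image_le
    by_cases hlt : X.A.ncard < A'.ncard
    · refine ihn (Nat.card D.ι - A'.ncard) (by omega) _ _ hO' hL' D' rfl rfl
    have eqc : A'.ncard = X.A.ncard := by omega
    have inj : Set.InjOn Prod.fst A' := Set.injOn_of_ncard_image_eq (by rw [im, eqc])
    refine ihm (Eg (fold X θ A')).ncard ?_ _ hO' hL' D' (by rw [← hn, ← eqc]; rfl) rfl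
    have sub1 : ∀ e ∈ Eg (fold X θ A'), ∀ e' ∈ Eg (fold X θ A'),
        Finset.image Prod.fst e = Finset.image Prod.fst e' → e ⊆ e' := by
      intro e he e' he' ee u hu
      obtain ⟨v, hv, k⟩ := Finset.mem_image.1 (ee ▸ Finset.mem_image_of_mem Prod.fst hu)
      exact inj (he'.2 v hv) (he.2 u hu) k ▸ hv
    rw [← hm, ← Set.InjOn.ncard_image (f := Finset.image Prod.fst) (s := Eg (fold X θ A'))
      fun e he e' he' ee => Finset.Subset.antisymm (sub1 e he e' he' ee) (sub1 e' he' e he ee.symm)]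
    refine Set.ncard_lt_ncard ⟨?_, fun hh => hnt ?_⟩
    · rintro _ ⟨e, he, rfl⟩
      refine ⟨⟨he.1.1.1, (dc_card d he.1.1).trans he.1.2⟩, fun x hx => ?_⟩
      obtain ⟨u, hu, rfl⟩ := Finset.mem_image.1 hx
      exact hA u (he.2 u hu)
    · have ex : ∀ a : X.V, ∃ v : ZMod 2, ∀ u ∈ A', u.1 = a → u.2 = v := fun a => by
        by_cases k : ∃ u ∈ A', u.1 = a
        · obtain ⟨u, hu, rfl⟩ := k
          exact ⟨u.2, fun v hv e => by rw [inj hv hu e]⟩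
        · exact ⟨0, fun u hu e => absurd ⟨u, hu, e⟩ k⟩
      choose lam hlam using ex
      refine ⟨lam, fun σ hσ x hx y hy ax ay => ?_⟩
      by_cases hxy : x = y
      · subst hxy
        rw [hθ σ hσ x hx x hx x hx ax ax ax, z2, z2]
      obtain ⟨e, he, ee⟩ := hh (show {x, y} ∈ Eg X from
        ⟨⟨hO.cxK.down σ hσ _ (pair_sub hx hy) (by simp), Finset.card_pair hxy⟩,
          fun u hu => by simp at hu; rcases hu with rfl | rfl <;> assumption⟩)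
      obtain ⟨u, hu, rfl⟩ := Finset.mem_image.1 (ee ▸ (by simp : x ∈ ({x, y} : Finset X.V)))
      obtain ⟨v, hv, rfl⟩ := Finset.mem_image.1 (ee ▸ (by simp : y ∈ ({u.1, y} : Finset X.V)))
      rw [← he.1.1.2.2 u hu v hv ax ay, hlam _ u (he.2 u hu) rfl, hlam _ v (he.2 v hv) rfl]
  exact main _ _ X0 hO0 hL0 D0 rfl rfl

end Crest.Agent.X212.Lt44
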