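import Crest.Agent.X212.Lt44.Rel

/-!
# Combinatorial loop theorem, TOP: cycles of the boundary surface bound (helper44)
-/

set_option autoImplicit false

namespace Crest.Agent.X212.Lt44

open Crest.Agent.X212.Dsc37

variable {G : Type} {X : Dat G}

/-- all vertices are good -/
def In (X : Dat G) (σ : Finset X.V) : Prop := ∀ x ∈ σ, x ∈ X.A
/-- mixed simplex -/
def Mix (X : Dat G) (σ : Finset X.V) : Prop := Mt X.A σ ∧ ¬ In X σ

theorem Mix.mono {σ ρ : Finset X.V} (h : Mix X σ) (hs : σ ⊆ ρ) : Mix X ρ :=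
  ⟨Mt.mono h.1 hs, fun hh => h.2 fun x hx => hh x (hs hx)⟩

theorem Mix.ex {σ : Finset X.V} (h : Mix X σ) : ∃ a ∈ σ, ∃ x ∈ σ, a ∈ X.A ∧ x ∉ X.A := by
  obtain ⟨⟨a, ha, hA⟩, h2⟩ := h
  simp only [In, not_forall] at h2
  obtain ⟨x, hx, hx'⟩ := h2
  exact ⟨a, ha, x, hx, hA, hx'⟩

theorem mix_pair {a x : X.V} (ha : a ∈ X.A) (hx : x ∉ X.A) : Mix X {a, x} :=
  ⟨⟨a, by simp, ha⟩, fun h => hx (h x (by simp))⟩

theorem pair_sub {V : Type*} [DecidableEq V] {x y : V} {σ : Finset V} (hx : x ∈ σ) (hy : y ∈ σ) :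
    ({x, y} : Finset V) ⊆ σ := Finset.insert_subset hx (Finset.singleton_subset_iff.2 hy)

theorem tri_sub {V : Type*} [DecidableEq V] {x y z : V} {σ : Finset V} (hx : x ∈ σ) (hy : y ∈ σ)
    (hz : z ∈ σ) : ({x, y, z} : Finset V) ⊆ σ := Finset.insert_subset hx (pair_sub hy hz)

theorem card_tri {V : Type*} [DecidableEq V] {x y z : V} (hxy : x ≠ y) (hxz : x ≠ z)
    (hyz : y ≠ z) : ({x, y, z} : Finset V).card = 3 :=
  Finset.card_eq_three.2 ⟨x, y, z, hxy, hxz, hyz, rfl⟩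

/-- a mixed edge is `{a, x}` -/
theorem mix_edge {e : Finset X.V} (hc : e.card = 2) (h : Mix X e) :
    ∃ a x, a ∈ X.A ∧ x ∉ X.A ∧ e = {a, x} := by
  obtain ⟨a, ha, x, hx, hA, hx'⟩ := h.ex
  exact ⟨a, x, hA, hx', (eq_of_card (pair_sub ha hx)
    (by rw [hc, Finset.card_pair (fun h : a = x => hx' (h ▸ hA))])).symm⟩

/-- a function on the mixed edges of `σ`, equal on edges of a triangle, is constant -/
theorem mix_const {α : Type*} {σ : Finset X.V} {ψ : Finset X.V → α}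
    (h : ∀ t, t ⊆ σ → t.card = 3 → ∀ e e', e ⊆ t → e' ⊆ t → e.card = 2 → e'.card = 2 → Mix X e →
      Mix X e' → ψ e = ψ e') {e e' : Finset X.V} (s : e ⊆ σ) (s' : e' ⊆ σ) (c : e.card = 2)
    (c' : e'.card = 2) (m : Mix X e) (m' : Mix X e') : ψ e = ψ e' := by
  obtain ⟨a, x, ha, hx, rfl⟩ := mix_edge c m
  obtain ⟨b, y, hb, hy, rfl⟩ := mix_edge c' m'
  have ne : ∀ {p q : X.V}, p ∈ X.A → q ∉ X.A → p ≠ q := fun hp hq h => hq (h ▸ hp)
  have e1 : ψ {a, x} = ψ {a, y} := by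
    by_cases hxy : x = y
    · rw [hxy]
    exact h {a, x, y} (tri_sub (s (by simp)) (s (by simp)) (s' (by simp)))
      (card_tri (ne ha hx) (ne ha hy) hxy) _ _ (pair_sub (by simp) (by simp))
      (pair_sub (by simp) (by simp)) c (Finset.card_pair (ne ha hy)) m (mix_pair ha hy)
  have e2 : ψ {a, y} = ψ {b, y} := by
    by_cases hab : a = b
    · rw [hab]
    exact h {a, b, y} (tri_sub (s (by simp)) (s' (by simp)) (s' (by simp)))
      (card_tri hab (ne ha hy) (ne hb hy)) _ _ (pair_sub (by simp) (by simp))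
      (pair_sub (by simp) (by simp)) (Finset.card_pair (ne ha hy)) c' (mix_pair ha hy) m'
  exact e1.trans e2

variable [AddGroup G]

theorem sx_tri (hO : X.OK) {x y z : X.V} (hxy : x ≠ y) (hxz : x ≠ z) (hyz : y ≠ z)
    (h : ({x, y, z} : Finset X.V) ∈ X.K) (e : Finset X.V) :
    (Sx X 2 e ∧ e ⊆ {x, y, z}) ↔ e = {x, y} ∨ e = {x, z} ∨ e = {y, z} := by
  rw [← tri_edges hxy hxz hyz]
  exact ⟨fun hh => ⟨hh.2, hh.1.2⟩, fun hh =>
    ⟨⟨hO.cxK.down _ h e hh.1 (Finset.card_pos.1 (by omega)), hh.2⟩, hh.1⟩⟩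

/-- a mixed triangle has two mixed edges -/
theorem two_mix (hO : X.OK) {t : Finset X.V} (ht : Sx X 3 t) (hm : Mix X t) :
    ∃ x y, x ≠ y ∧ ∀ e, ((Sx X 2 e ∧ Mix X e) ∧ e ⊆ t) ↔ e = x ∨ e = y := by
  obtain ⟨a, ha, x, hx, hA, hx'⟩ := hm.ex
  have hax : a ≠ x := fun h => hx' (h ▸ hA)
  obtain ⟨z, hz, hzz⟩ := Finset.exists_mem_notMem_of_card_lt_card (s := {a, x}) (t := t)
    (by rw [ht.2, Finset.card_pair hax]; omega)
  simp only [Finset.mem_insert, Finset.mem_singleton, not_or] at hzz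
  have haz : a ≠ z := fun h => hzz.1 h.symm
  have hxz : x ≠ z := fun h => hzz.2 h.symm
  have e : ({a, x, z} : Finset X.V) = t :=
    eq_of_card (tri_sub ha hx hz) (by rw [ht.2, card_tri hax haz hxz])
  subst e
  have hs := sx_tri hO hax haz hxz ht.1
  by_cases hzA : z ∈ X.A
  · refine ⟨{a, x}, {x, z}, ?_, fun e => ⟨fun h => ?_, ?_⟩⟩
    · rw [Finset.pair_comm a x]; exact pair_ne hxz haz
    · rcases (hs e).1 ⟨h.1.1, h.2⟩ with k | k | k
      · exact Or.inl k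
      · exact absurd (by rw [k]; intro y hy; simp at hy; rcases hy with rfl | rfl <;> assumption)
          h.1.2.2
      · exact Or.inr k
    · rintro (rfl | rfl)
      · have := (hs _).2 (Or.inl rfl)
        exact ⟨⟨this.1, mix_pair hA hx'⟩, this.2⟩
      · have := (hs _).2 (Or.inr (Or.inr rfl))
        exact ⟨⟨this.1, Finset.pair_comm z x ▸ mix_pair hzA hx'⟩, this.2⟩
  · refine ⟨{a, x}, {a, z}, pair_ne haz hxz, fun e => ⟨fun h => ?_, ?_⟩⟩
    · rcases (hs e).1 ⟨h.1.1, h.2⟩ with k | k | k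
      · exact Or.inl k
      · exact Or.inr k
      · obtain ⟨y, hy, hyA⟩ := h.1.2.1
        rw [k] at hy
        simp at hy
        rcases hy with rfl | rfl <;> contradiction
    · rintro (rfl | rfl)
      · have := (hs _).2 (Or.inl rfl)
        exact ⟨⟨this.1, mix_pair hA hx'⟩, this.2⟩
      · have := (hs _).2 (Or.inr (Or.inl rfl))
        exact ⟨⟨this.1, mix_pair hA hzA⟩, this.2⟩

/-- **(P)** edge cycles inside `A` bound inside `A` -/
theorem abs_bound (hO : X.OK) (hH : H1On X.K X.A) {z : Finset X.V → ZMod 2}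
    (hz : ∀ a ∈ X.A, sm (fun f => (Sx X 2 f ∧ In X f) ∧ a ∈ f) z = 0) :
    ∃ b : Finset X.V → ZMod 2, ∀ f, Sx X 2 f ∧ In X f →
      z f = sm (fun t => (Sx X 3 t ∧ In X t) ∧ f ⊆ t) b := by
  classical
  refine d0 (fun t => Sx X 3 t ∧ In X t) (fun f => Sx X 2 f ∧ In X f) (fun t f => f ⊆ t) z
    fun θ hθ => ?_
  obtain ⟨l, hl⟩ := hH (fun x y => if x = y then 0 else θ {x, y}) (by
    intro σ hσ x hx y hy w hw ax ay aw
    by_cases hxy : x = y
    · subst hxy; simp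
    by_cases hyw : y = w
    · subst hyw; simp
    by_cases hxw : x = w
    · subst hxw; simp [hxy, hyw, Finset.pair_comm y x, z2]
    have hK := hO.cxK.down σ hσ _ (tri_sub hx hy hw) (by simp)
    have hin : In X {x, y, w} := by
      intro u hu; simp at hu; rcases hu with rfl | rfl | rfl <;> assumption
    have h0 := hθ {x, y, w} ⟨⟨hK, card_tri hxy hxw hyw⟩, hin⟩
    rw [sm_three (x := {x, y}) (y := {x, w}) (z := {y, w}) (pair_ne hxw hyw)
      (by rw [Finset.pair_comm x y]; exact pair_ne hyw hxw)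
      (by rw [Finset.pair_comm x w, Finset.pair_comm y w]
          exact pair_ne (Ne.symm hyw) hxy)] at h0
    · simp only [hxy, hyw, hxw, if_false]
      generalize θ {x, y} = p, θ {x, w} = q, θ {y, w} = r at h0 ⊢
      revert p q r; decide
    · intro e
      rw [← sx_tri hO hxy hxw hyw hK]
      exact ⟨fun h => ⟨h.1.1, h.2⟩, fun h => ⟨⟨h.1, fun u hu => hin u (h.2 hu)⟩, h.2⟩⟩)
  have e1 : ∀ f, Sx X 2 f ∧ In X f → z f * θ f = sm (fun a => a ∈ f) (fun a => z f * l a) := by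
    rintro f ⟨hf, hi⟩
    obtain ⟨x, y, hxy, rfl⟩ := Finset.card_eq_two.1 hf.2
    have := hl _ hf.1 x (by simp) y (by simp) (hi x (by simp)) (hi y (by simp))
    simp only [hxy, if_false] at this
    rw [sm_two hxy (by simp), this, mul_add]
  rw [sm_congr (fun _ => Iff.rfl) e1, sm_comm _ (fun f a => a ∈ f) (fun a => a ∈ X.A)
    (fun f a => z f * l a) fun f a hf ha => hf.2 a ha]
  refine sm_zero fun a ha => ?_
  rw [← sm_mul, hz a ha, zero_mul]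

/-- **(C)** one-cycles of the boundary surface bound in it -/
theorem cyc_bound (hO : X.OK) (hL : X.Loc) (hH : H1On X.K X.A) {am aw : Finset X.V → ZMod 2}
    (hF : ∀ e, e ∉ X.F → aw e = 0)
    (h1 : ∀ e, Sx X 2 e → Mix X e → sm (fun t => (Sx X 3 t ∧ Mix X t) ∧ e ⊆ t) am + aw e = 0)
    (h2 : ∀ a ∈ X.A, sm (fun e => Sx X 2 e ∧ a ∈ e) aw = 0) :
    ∃ y yw : Finset X.V → ZMod 2,
      (∀ t, Sx X 3 t → Mix X t → am t = sm (fun T => Sx X 4 T ∧ t ⊆ T) y + yw t) ∧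
      (∀ t, Sx X 3 t → Mt X.A t → t ∉ X.F → yw t = 0) ∧
      ∀ e, Sx X 2 e → Mt X.A e → aw e = sm (fun t => Sx X 3 t ∧ t ∈ X.F ∧ e ⊆ t) yw := by
  classical
  let z : Finset X.V → ZMod 2 := fun e => sm (fun t => (Sx X 3 t ∧ Mix X t) ∧ e ⊆ t) am + aw e
  obtain ⟨b, hb⟩ := abs_bound hO hH (z := z) (fun a ha => by
    have e0 : sm (fun e => Sx X 2 e ∧ a ∈ e) z = 0 := by
      rw [sm_add, h2 a ha, add_zero, sm_comm _ (fun e t => (Sx X 3 t ∧ Mix X t) ∧ e ⊆ t)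
        (fun t => (Sx X 3 t ∧ Mix X t) ∧ a ∈ t) (fun _ t => am t)
        fun e t he ht => ⟨ht.1, ht.2 he.2⟩]
      refine sm_zero fun t ht => sm_const_two ?_ _
      obtain ⟨x, y, hxy, h⟩ := btw hO (n := 1) ht.1.1 (Finset.card_singleton a)
        (Finset.singleton_subset_iff.2 ht.2)
      refine ⟨x, y, hxy, fun e => ?_⟩
      rw [← h, Finset.singleton_subset_iff]
      exact ⟨fun k => ⟨k.1.1, k.1.2, k.2.2⟩, fun k => ⟨⟨k.1, k.2.1⟩, ht.1, k.2.2⟩⟩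
    rw [sm_drop (Q := In X) fun e he hi => h1 e he.1 ⟨⟨a, he.2, ha⟩, hi⟩] at e0
    rw [← e0]
    exact sm_congr (fun e => by tauto) fun _ _ => rfl)
  let β : Finset X.V → ZMod 2 := fun t => if In X t then b t else am t
  have hβ : ∀ e, Sx X 2 e → Mt X.A e → sm (fun t => Sx X 3 t ∧ e ⊆ t) β = aw e := by
    intro e he hm
    have s1 : sm (fun t => (Sx X 3 t ∧ e ⊆ t) ∧ ¬ In X t) β
        = sm (fun t => (Sx X 3 t ∧ Mix X t) ∧ e ⊆ t) am :=
      sm_congr (fun t => ⟨fun k => ⟨⟨k.1.1, Mt.mono hm k.1.2, k.2⟩, k.1.2⟩,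
        fun k => ⟨⟨k.1.1, k.2⟩, k.1.2.2⟩⟩) fun t k => by simp [β, k.1.2.2]
    rw [sm_split _ (In X), s1]
    by_cases hi : In X e
    · have s2 : sm (fun t => (Sx X 3 t ∧ e ⊆ t) ∧ In X t) β = z e := by
        rw [hb e ⟨he, hi⟩]
        exact sm_congr (fun t => by tauto) fun t k => by simp [β, k.1.2]
      rw [s2]
      simp only [z]
      generalize sm (fun t => (Sx X 3 t ∧ Mix X t) ∧ e ⊆ t) am = p, aw e = q
      revert p q; decide
    · rw [sm_zero fun t k => absurd (fun u hu => k.2 u (k.1.2 hu)) hi, zero_add]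
      exact z2e.1 (h1 e he ⟨hm, hi⟩)
  obtain ⟨y, hy⟩ := rel_bound hO hL hH (β := β) fun e he hm h => by rw [hβ e he hm, hF e h]
  have h0 : ∀ t, Sx X 3 t → Mt X.A t → t ∉ X.F → β t + sm (fun T => Sx X 4 T ∧ t ⊆ T) y = 0 :=
    fun t ht hm h => by rw [← hy t ht hm h, z2]
  refine ⟨y, fun t => β t + sm (fun T => Sx X 4 T ∧ t ⊆ T) y, fun t ht hm => ?_, h0,
    fun e he hm => ?_⟩
  · simp only [β, hm.2, if_false]
    generalize am t = p, sm (fun T => Sx X 4 T ∧ t ⊆ T) y = q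
    revert p q; decide
  · have e1 : sm (fun t => Sx X 3 t ∧ e ⊆ t) (fun t => sm (fun T => Sx X 4 T ∧ t ⊆ T) y) = 0 := by
      rw [sm_comm _ (fun t T => Sx X 4 T ∧ t ⊆ T) (fun T => Sx X 4 T ∧ e ⊆ T) (fun _ T => y T)
        fun t T ht hT => ⟨hT.1, ht.2.trans hT.2⟩]
      refine sm_zero fun T hT => sm_const_two ?_ _
      obtain ⟨x, y, hxy, h⟩ := btw hO (n := 2) hT.1 he.2 hT.2
      refine ⟨x, y, hxy, fun t => ?_⟩
      rw [← h]
      exact ⟨fun k => ⟨k.1.1, k.1.2, k.2.2⟩, fun k => ⟨⟨k.1, k.2.1⟩, hT.1, k.2.2⟩⟩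
    have e2 := sm_add (fun t => Sx X 3 t ∧ e ⊆ t) β fun t => sm (fun T => Sx X 4 T ∧ t ⊆ T) y
    rw [e1, hβ e he hm, add_zero,
      sm_drop (Q := fun t => t ∈ X.F) fun t k h => h0 t k.1 (Mt.mono hm k.2) h] at e2
    rw [← e2]
    exact sm_congr (fun t => by tauto) fun _ _ => rfl

/-- the mixed simplices -/
def Zm (X : Dat G) : Set (Finset X.V) := {σ | σ ∈ X.K ∧ Mix X σ}

/-- extension of a potential from the mixed edges to all mixed simplices -/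
theorem ext_pot (hO : X.OK) {c : Finset X.V → Finset X.V → ZMod 2} (hc : Coc sub (Zm X) c)
    {β : Finset X.V → ZMod 2} (h : ∀ t, Sx X 3 t → Mix X t →
      sm (fun e => (Sx X 2 e ∧ Mix X e) ∧ e ⊆ t) (fun e => β e + c e t) = 0) :
    ∃ l : Finset X.V → ZMod 2, (∀ x ∈ Zm X, ∀ y ∈ Zm X, x ⊆ y → l y = l x + c x y) ∧
      ∀ e, Sx X 2 e → Mix X e → l e = β e := by
  classical
  have ex : ∀ σ : Finset X.V, ∃ e, Mix X σ → e ⊆ σ ∧ e.card = 2 ∧ Mix X e := fun σ => by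
    by_cases hm : Mix X σ
    · obtain ⟨a, ha, x, hx, hA, hx'⟩ := hm.ex
      exact ⟨{a, x}, fun _ => ⟨pair_sub ha hx, Finset.card_pair (fun h => hx' (h ▸ hA)),
        mix_pair hA hx'⟩⟩
    · exact ⟨σ, fun k => absurd k hm⟩
  choose ed hed using ex
  have dn : ∀ σ ∈ Zm X, ∀ e, e ⊆ σ → Mix X e → e ∈ Zm X := fun σ hσ e s m =>
    ⟨hO.cxK.down σ hσ.1 e s (by obtain ⟨a, ha, -⟩ := m.1; exact ⟨a, ha⟩), m⟩
  have ind : ∀ σ ∈ Zm X, ∀ e, e ⊆ σ → e.card = 2 → Mix X e →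
      β (ed σ) + c (ed σ) σ = β e + c e σ := by
    intro σ hσ e s ce m
    obtain ⟨k1, k2, k3⟩ := hed σ hσ.2
    refine mix_const (ψ := fun e => β e + c e σ) ?_ k1 s k2 ce k3 m
    intro t st ct e e' s s' ce ce' m m'
    have tZ := dn σ hσ t st (m.mono s)
    have eZ := dn t tZ e s m
    have eZ' := dn t tZ e' s' m'
    obtain ⟨x, y, hxy, hh⟩ := two_mix hO ⟨tZ.1, ct⟩ tZ.2
    have h0 := h t ⟨tZ.1, ct⟩ tZ.2
    rw [sm_two hxy hh, z2e] at h0
    have : β e + c e t = β e' + c e' t := by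
      rcases (hh e).1 ⟨⟨⟨eZ.1, ce⟩, m⟩, s⟩ with rfl | rfl <;>
        rcases (hh e').1 ⟨⟨⟨eZ'.1, ce'⟩, m'⟩, s'⟩ with k | k <;> simp [k, h0]
    simp only [hc e eZ t tZ σ hσ s st, hc e' eZ' t tZ σ hσ s' st, ← add_assoc, this]
  refine ⟨fun σ => β (ed σ) + c (ed σ) σ, fun x hx y hy s => ?_, fun e he m => ?_⟩
  · obtain ⟨k1, k2, k3⟩ := hed x hx.2
    simp only [ind y hy (ed x) (k1.trans s) k2 k3, hc _ (dn x hx _ k1 k3) x hx y hy k1 s, add_assoc]
  · have h0 := hc e ⟨he.1, m⟩ e ⟨he.1, m⟩ e ⟨he.1, m⟩ subset_rfl subset_rfl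
    simp only [ind e ⟨he.1, m⟩ e subset_rfl he.2 m, h0.trans (z2 _), add_zero]

end Crest.Agent.X212.Lt44
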