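import Crest.Agent.X212.Dsc37.Tw

/-!
# Combinatorial loop theorem, TOP: sums over `ZMod 2`, duality, even subgraphs (helper44)
-/

set_option autoImplicit false

namespace Crest.Agent.X212.Lt44

open Classical in
/-- the sum of `a` over the elements with `P` -/
noncomputable def sm {ι : Type*} [Fintype ι] (P : ι → Prop) (a : ι → ZMod 2) : ZMod 2 :=
  ∑ j, if P j then a j else 0

theorem z2 (x : ZMod 2) : x + x = 0 := by revert x; decide
theorem z2c (x : ZMod 2) : x = 0 ∨ x = 1 := by revert x; decide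
theorem z2e {x y : ZMod 2} : x + y = 0 ↔ x = y := by revert x y; decide

section
variable {ι κ : Type*} [Fintype ι] [Fintype κ]

theorem sm_congr {P Q : ι → Prop} {a b : ι → ZMod 2} (h : ∀ j, P j ↔ Q j)
    (h' : ∀ j, Q j → a j = b j) : sm P a = sm Q b := by
  unfold sm
  refine Finset.sum_congr rfl fun j _ => ?_
  by_cases hq : Q j
  · rw [if_pos hq, if_pos ((h j).2 hq), h' j hq]
  · rw [if_neg hq, if_neg (fun hp => hq ((h j).1 hp))]

theorem sm_zero {P : ι → Prop} {a : ι → ZMod 2} (h : ∀ j, P j → a j = 0) : sm P a = 0 := by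
  unfold sm
  refine Finset.sum_eq_zero fun j _ => ?_
  split_ifs with hp
  · exact h j hp
  · rfl

theorem sm_add (P : ι → Prop) (a b : ι → ZMod 2) :
    sm P (fun j => a j + b j) = sm P a + sm P b := by
  unfold sm
  rw [← Finset.sum_add_distrib]
  refine Finset.sum_congr rfl fun j _ => ?_
  split_ifs <;> simp

theorem sm_mul (P : ι → Prop) (a : ι → ZMod 2) (c : ZMod 2) :
    sm P a * c = sm P (fun j => a j * c) := by
  unfold sm
  rw [Finset.sum_mul]
  refine Finset.sum_congr rfl fun j _ => ?_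
  split_ifs <;> simp

theorem mul_sm (P : ι → Prop) (a : ι → ZMod 2) (c : ZMod 2) :
    c * sm P a = sm P (fun j => c * a j) := by
  rw [mul_comm, sm_mul]; exact sm_congr (fun _ => Iff.rfl) fun j _ => mul_comm _ _

theorem sm_one {P : ι → Prop} {x : ι} (h : ∀ j, P j ↔ j = x) (a : ι → ZMod 2) :
    sm P a = a x := by
  unfold sm
  rw [Finset.sum_eq_single x]
  · rw [if_pos ((h x).2 rfl)]
  · intro j _ hj; rw [if_neg (fun hp => hj ((h j).1 hp))]
  · simp

/-- split a sum along a predicate -/
theorem sm_split (P Q : ι → Prop) (a : ι → ZMod 2) :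
    sm P a = sm (fun j => P j ∧ Q j) a + sm (fun j => P j ∧ ¬ Q j) a := by
  unfold sm
  rw [← Finset.sum_add_distrib]
  refine Finset.sum_congr rfl fun j _ => ?_
  by_cases hp : P j <;> by_cases hq : Q j <;> simp [hp, hq]

theorem sm_two {P : ι → Prop} {x y : ι} (hxy : x ≠ y) (h : ∀ j, P j ↔ j = x ∨ j = y)
    (a : ι → ZMod 2) : sm P a = a x + a y := by
  rw [sm_split P (fun j => j = x), sm_one (x := x), sm_one (x := y)]
  · intro j; rw [h]; constructor
    · rintro ⟨h1 | h1, h2⟩
      · exact absurd h1 h2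
      · exact h1
    · rintro rfl; exact ⟨Or.inr rfl, hxy.symm⟩
  · intro j; rw [h]; constructor
    · exact fun h1 => h1.2
    · rintro rfl; exact ⟨Or.inl rfl, rfl⟩

theorem sm_three {P : ι → Prop} {x y z : ι} (hxy : x ≠ y) (hxz : x ≠ z) (hyz : y ≠ z)
    (h : ∀ j, P j ↔ j = x ∨ j = y ∨ j = z) (a : ι → ZMod 2) : sm P a = a x + a y + a z := by
  rw [sm_split P (fun j => j = x), sm_one (x := x), sm_two (x := y) (y := z) hyz, add_assoc]
  · intro j; rw [h]; constructor
    · rintro ⟨h1 | h1, h2⟩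
      · exact absurd h1 h2
      · exact h1
    · rintro (rfl | rfl)
      · exact ⟨Or.inr (Or.inl rfl), hxy.symm⟩
      · exact ⟨Or.inr (Or.inr rfl), hxz.symm⟩
  · intro j; rw [h]; constructor
    · exact fun h1 => h1.2
    · rintro rfl; exact ⟨Or.inl rfl, rfl⟩

/-- drop the terms that vanish -/
theorem sm_drop {P Q : ι → Prop} {a : ι → ZMod 2} (h : ∀ j, P j → ¬ Q j → a j = 0) :
    sm P a = sm (fun j => P j ∧ Q j) a := by
  rw [sm_split P Q, sm_zero (P := fun j => P j ∧ ¬ Q j) fun j hj => h j hj.1 hj.2, add_zero]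

theorem sm_comm (P : ι → Prop) (R : ι → κ → Prop) (Q : κ → Prop) (u : ι → κ → ZMod 2)
    (h : ∀ i j, P i → R i j → Q j) :
    sm P (fun i => sm (R i) (u i)) = sm Q (fun j => sm (fun i => P i ∧ R i j) (fun i => u i j)) := by
  classical
  have h1 : sm P (fun i => sm (R i) (u i)) = ∑ i, ∑ j, if P i ∧ R i j then u i j else 0 := by
    unfold sm
    refine Finset.sum_congr rfl fun i _ => ?_
    by_cases hp : P i
    · simp only [hp, if_true, true_and]
    · simp [hp]
  have h2 : sm Q (fun j => sm (fun i => P i ∧ R i j) (fun i => u i j))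
      = ∑ j, ∑ i, if P i ∧ R i j then u i j else 0 := by
    unfold sm
    refine Finset.sum_congr rfl fun j _ => ?_
    by_cases hq : Q j
    · simp only [hq, if_true]
    · rw [if_neg hq]
      refine (Finset.sum_eq_zero fun i _ => ?_).symm
      rw [if_neg fun hh => hq (h i j hh.1 hh.2)]
  rw [h1, h2, Finset.sum_comm]

/-- a constant summed over a two element set -/
theorem sm_const_two {P : ι → Prop} (h : ∃ x y, x ≠ y ∧ ∀ j, P j ↔ j = x ∨ j = y) (c : ZMod 2) :
    sm P (fun _ => c) = 0 := by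
  obtain ⟨x, y, hxy, h⟩ := h
  rw [sm_two hxy h, z2]

/-- DUALITY: what kills all cycles is a coboundary -/
theorem d0 (Q : ι → Prop) (P : κ → Prop) (R : ι → κ → Prop) (α : κ → ZMod 2)
    (h : ∀ a : κ → ZMod 2, (∀ i, Q i → sm (fun j => P j ∧ R i j) a = 0) →
      sm P (fun j => α j * a j) = 0) :
    ∃ β : ι → ZMod 2, ∀ j, P j → α j = sm (fun i => Q i ∧ R i j) β := by
  classical
  have : Fact (Nat.Prime 2) := ⟨Nat.prime_two⟩
  let L : (ι → ZMod 2) →ₗ[ZMod 2] (κ → ZMod 2) :=
    { toFun := fun β j => if P j then sm (fun i => Q i ∧ R i j) β else 0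
      map_add' := fun β γ => by
        funext j
        by_cases hp : P j
        · simp only [hp, if_true, Pi.add_apply]; exact sm_add _ _ _
        · simp [hp]
      map_smul' := fun c β => by
        funext j
        by_cases hp : P j
        · simp only [hp, if_true, Pi.smul_apply, smul_eq_mul, RingHom.id_apply]
          exact (mul_sm _ _ _).symm
        · simp [hp] }
  let α' : κ → ZMod 2 := fun j => if P j then α j else 0
  by_cases hα : α' ∈ LinearMap.range L
  · obtain ⟨β, hβ⟩ := hα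
    refine ⟨β, fun j hj => ?_⟩
    have := congrFun hβ j
    simp only [L, α', LinearMap.coe_mk, AddHom.coe_mk, hj, if_true] at this
    exact this.symm
  exfalso
  obtain ⟨f, hf, hf'⟩ := Submodule.exists_dual_map_eq_bot_of_notMem hα inferInstance
  let a : κ → ZMod 2 := fun j => f (Pi.single j 1)
  have hfa : ∀ x : κ → ZMod 2, f x = ∑ j, x j * a j := by
    intro x
    conv_lhs => rw [← Finset.univ_sum_single x, map_sum]
    refine Finset.sum_congr rfl fun j _ => ?_
    have : (Pi.single j (x j) : κ → ZMod 2) = x j • (Pi.single j 1 : κ → ZMod 2) := by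
      rw [← Pi.single_smul, smul_eq_mul, mul_one]
    rw [this, map_smul, smul_eq_mul]
  apply hf
  rw [hfa]
  have h1 : ∑ j, α' j * a j = sm P (fun j => α j * a j) := by
    unfold sm
    refine Finset.sum_congr rfl fun j _ => ?_
    by_cases hp : P j <;> simp [α', hp]
  rw [h1]
  refine h a fun i hi => ?_
  have h2 : f (L (Pi.single i 1)) = 0 := by
    have : f (L (Pi.single i 1)) ∈ (LinearMap.range L).map f :=
      Submodule.mem_map_of_mem (LinearMap.mem_range_self _ _)
    rwa [hf', Submodule.mem_bot] at this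
  rw [hfa] at h2
  rw [← h2]
  unfold sm
  refine Finset.sum_congr rfl fun j _ => ?_
  by_cases hp : P j
  · have h3 : L (Pi.single i 1) j = sm (fun i => Q i ∧ R i j) (Pi.single i 1) := by
      simp [L, hp]
    rw [h3]
    by_cases hr : R i j
    · rw [if_pos ⟨hp, hr⟩, sm_drop (Q := fun i' => i' = i) (fun i' _ h' => by simp [h']),
        sm_one (x := i) (fun i' => ⟨fun h' => h'.2, fun h' => ⟨h' ▸ ⟨hi, hr⟩, h'⟩⟩)]
      simp
    · rw [if_neg fun hh => hr hh.2, sm_zero, zero_mul]
      intro i' hi'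
      have : i' ≠ i := fun h' => hr (h' ▸ hi'.2)
      simp [this]
  · rw [if_neg fun hh => hp hh.1]
    simp [L, hp]

/-- EVEN SUBGRAPH: `B` a non-empty set of edges, each in exactly two faces, no face with exactly
one edge of `B`: there is a non-zero function on `B` which is even on every face. -/
theorem even_sub (B : ι → Prop) (R : ι → κ → Prop) (hB : ∃ e, B e)
    (h2 : ∀ e, B e → ∃ x y, x ≠ y ∧ ∀ t, R e t ↔ t = x ∨ t = y)
    (hf : ∀ t e, B e → R e t → ∃ e', e' ≠ e ∧ B e' ∧ R e' t) :
    ∃ a : ι → ZMod 2, (∀ e, ¬ B e → a e = 0) ∧ (∃ e, a e ≠ 0) ∧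
      ∀ t, sm (fun e => B e ∧ R e t) a = 0 := by
  classical
  have : Fact (Nat.Prime 2) := ⟨Nat.prime_two⟩
  by_contra hcon
  push Not at hcon
  obtain ⟨e0, he0⟩ := hB
  obtain ⟨t0, t1, -, ht0⟩ := h2 e0 he0
  have hR0 : R e0 t0 := (ht0 t0).2 (Or.inl rfl)
  let sB : Finset ι := Finset.univ.filter B
  let sT : Finset κ := Finset.univ.filter fun t => ∃ e, B e ∧ R e t
  have hcard : sT.card ≤ sB.card := by
    have h := Finset.card_mul_le_card_mul (s := sT) (t := sB) (fun t e => R e t) (m := 2) (n := 2)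
      (fun t ht => by
        obtain ⟨e, he, hr⟩ := (Finset.mem_filter.1 ht).2
        obtain ⟨e', hne, he', hr'⟩ := hf t e he hr
        refine Finset.one_lt_card.2 ⟨e', ?_, e, ?_, hne⟩ <;>
          simp [Finset.mem_bipartiteAbove, sB, *])
      (fun e he => by
        obtain ⟨x, y, -, hxy⟩ := h2 e (Finset.mem_filter.1 he).2
        refine le_trans (Finset.card_le_card (t := {x, y}) fun t ht => ?_) Finset.card_le_two
        have := (hxy t).1 ((Finset.mem_bipartiteBelow _).1 ht).2
        simpa using this)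
    omega
  let ex : (sB → ZMod 2) → ι → ZMod 2 := fun x e => if h : e ∈ sB then x ⟨e, h⟩ else 0
  let L : (sB → ZMod 2) →ₗ[ZMod 2] (sT.erase t0 → ZMod 2) :=
    { toFun := fun x t => sm (fun e => B e ∧ R e t.1) (ex x)
      map_add' := fun x y => by
        funext t
        rw [Pi.add_apply, ← sm_add]
        refine sm_congr (fun _ => Iff.rfl) fun e _ => ?_
        by_cases h : e ∈ sB <;> simp [ex, h]
      map_smul' := fun c x => by
        funext t
        rw [Pi.smul_apply, smul_eq_mul, RingHom.id_apply, mul_sm]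
        refine sm_congr (fun _ => Iff.rfl) fun e _ => ?_
        by_cases h : e ∈ sB <;> simp [ex, h] }
  have hinj : Function.Injective L := by
    rw [injective_iff_map_eq_zero]
    intro x hx
    by_contra hx0
    obtain ⟨e1, he1⟩ := Function.ne_iff.1 hx0
    obtain ⟨t, ht⟩ := hcon (ex x) (fun e he => by simp [ex, sB, he])
      ⟨e1.1, by simpa [ex] using he1⟩
    have hoth : ∀ t', t' ≠ t0 → sm (fun e => B e ∧ R e t') (ex x) = 0 := by
      intro t' ht'
      by_cases hm : t' ∈ sT
      · exact congrFun hx ⟨t', Finset.mem_erase.2 ⟨ht', hm⟩⟩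
      · refine sm_zero fun e he => absurd ?_ hm
        exact Finset.mem_filter.2 ⟨Finset.mem_univ _, e, he⟩
    have htt : t = t0 := by_contra fun h => ht (hoth t h)
    subst htt
    have hs := sm_comm B R (fun _ => True) (fun e _ => ex x e) fun _ _ _ _ => trivial
    rw [sm_zero (fun e he => sm_const_two (h2 e he) _), sm_drop (Q := fun t' => t' = t)
      (fun t' _ h' => hoth t' h'), sm_one (x := t) (by simp)] at hs
    exact ht hs.symm
  have hle := LinearMap.finrank_le_finrank_of_injective hinj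
  have hm : t0 ∈ sT := Finset.mem_filter.2 ⟨Finset.mem_univ _, e0, he0, hR0⟩
  simp only [Module.finrank_fintype_fun_eq_card, Fintype.card_coe,
    Finset.card_erase_of_mem hm] at hle
  have := Finset.card_pos.2 ⟨t0, hm⟩
  omega

end

section
variable {V : Type*} [DecidableEq V]

/-- exactly two sets strictly between -/
theorem between {s T : Finset V} (h : s ⊆ T) (hc : T.card = s.card + 2) :
    ∃ t1 t2 : Finset V, t1 ≠ t2 ∧
      ∀ t, (s ⊆ t ∧ t ⊆ T ∧ t.card = s.card + 1) ↔ t = t1 ∨ t = t2 := by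
  have h2 : (T \ s).card = 2 := by rw [Finset.card_sdiff_of_subset h]; omega
  obtain ⟨x, y, hxy, he⟩ := Finset.card_eq_two.1 h2
  have hx : x ∈ T ∧ x ∉ s := Finset.mem_sdiff.1 (he ▸ by simp)
  have hy : y ∈ T ∧ y ∉ s := Finset.mem_sdiff.1 (he ▸ by simp)
  refine ⟨insert x s, insert y s, fun hh => ?_, fun t => ⟨fun ⟨h1, h3, h4⟩ => ?_, ?_⟩⟩
  · have : x ∈ insert y s := hh ▸ Finset.mem_insert_self x s
    rcases Finset.mem_insert.1 this with h' | h'
    · exact hxy h'
    · exact hx.2 h'
  · obtain ⟨z, hz, rfl⟩ := (Finset.exists_eq_insert_iff.2 ⟨h1, h4.symm⟩)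
    have : z ∈ T \ s := Finset.mem_sdiff.2 ⟨h3 (Finset.mem_insert_self _ _), hz⟩
    rw [he] at this
    rcases Finset.mem_insert.1 this with h' | h'
    · exact Or.inl (h' ▸ rfl)
    · exact Or.inr (Finset.mem_singleton.1 h' ▸ rfl)
  · rintro (rfl | rfl)
    · exact ⟨Finset.subset_insert _ _, Finset.insert_subset hx.1 h,
        Finset.card_insert_of_notMem hx.2⟩
    · exact ⟨Finset.subset_insert _ _, Finset.insert_subset hy.1 h,
        Finset.card_insert_of_notMem hy.2⟩

/-- the edges of a triangle -/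
theorem tri_edges {x y z : V} (hxy : x ≠ y) (hxz : x ≠ z) (hyz : y ≠ z) (e : Finset V) :
    (e ⊆ {x, y, z} ∧ e.card = 2) ↔ e = {x, y} ∨ e = {x, z} ∨ e = {y, z} := by
  constructor
  · rintro ⟨h1, h2⟩
    obtain ⟨a, b, hab, rfl⟩ := Finset.card_eq_two.1 h2
    have ha := h1 (Finset.mem_insert_self _ _)
    have hb := h1 (Finset.mem_insert_of_mem (Finset.mem_singleton_self b))
    simp only [Finset.mem_insert, Finset.mem_singleton] at ha hb
    rcases ha with rfl | rfl | rfl <;> rcases hb with rfl | rfl | rfl <;>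
      first | exact absurd rfl hab | simp [Finset.pair_comm]
  · rintro (rfl | rfl | rfl)
    · exact ⟨by intro a; simp; tauto, Finset.card_pair hxy⟩
    · exact ⟨by intro a; simp; tauto, Finset.card_pair hxz⟩
    · exact ⟨by intro a; simp; tauto, Finset.card_pair hyz⟩

theorem pair_ne {x y z : V} (hxz : x ≠ z) (hyz : y ≠ z) : ({x, y} : Finset V) ≠ {x, z} := by
  intro h
  have : z ∈ ({x, y} : Finset V) := h ▸ by simp
  simp only [Finset.mem_insert, Finset.mem_singleton] at this
  rcases this with h | h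
  · exact hxz h.symm
  · exact hyz h.symm

theorem ncard_two {α : Type*} {P : α → Prop} (h : {x | P x}.ncard = 2) :
    ∃ x y, x ≠ y ∧ ∀ j, P j ↔ j = x ∨ j = y := by
  obtain ⟨x, y, hxy, he⟩ := Set.ncard_eq_two.1 h
  exact ⟨x, y, hxy, fun j => by simpa using Set.ext_iff.1 he j⟩

theorem ncard_one {α : Type*} {P : α → Prop} (h : {x | P x}.ncard = 1) :
    ∃ x, ∀ j, P j ↔ j = x := by
  obtain ⟨x, he⟩ := Set.ncard_eq_one.1 h
  exact ⟨x, fun j => by simpa using Set.ext_iff.1 he j⟩

end

end Crest.Agent.X212.Lt44
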