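import Crest.Agent.X212.Lt44.Lin

/-!
# Combinatorial loop theorem, TOP: relative two-cycles bound (helper44)
-/

set_option autoImplicit false

namespace Crest.Agent.X212.Lt44

open Crest.Agent.X212.Dsc37

variable {G : Type} {X : Dat G}

/-- simplices of `X` with `n` vertices -/
def Sx (X : Dat G) (n : ℕ) (σ : Finset X.V) : Prop := σ ∈ X.K ∧ σ.card = n

theorem Mt.mono {V : Type*} {A : Set V} {σ ρ : Finset V} (h : Mt A σ) (hs : σ ⊆ ρ) : Mt A ρ := by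
  obtain ⟨a, ha, hA⟩ := h
  exact ⟨a, hs ha, hA⟩

theorem eq_of_card {V : Type*} {σ ρ : Finset V} (h : σ ⊆ ρ) (hc : ρ.card ≤ σ.card) : σ = ρ :=
  Finset.eq_of_subset_of_card_le h hc

variable [AddGroup G]

theorem two_tet (hO : X.OK) {t : Finset X.V} (ht : Sx X 3 t) (hm : Mt X.A t) (hF : t ∉ X.F) :
    ∃ x y, x ≠ y ∧ ∀ T, (Sx X 4 T ∧ t ⊆ T) ↔ T = x ∨ T = y := by
  obtain ⟨x, y, hxy, h⟩ := ncard_two (hO.triI t ht.1 ht.2 hm hF)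
  exact ⟨x, y, hxy, fun T => by rw [← h, Sx, and_assoc]⟩

theorem one_tet (hO : X.OK) {t : Finset X.V} (ht : Sx X 3 t) (hm : Mt X.A t) (hF : t ∈ X.F) :
    ∃ x, ∀ T, (Sx X 4 T ∧ t ⊆ T) ↔ T = x := by
  obtain ⟨x, h⟩ := ncard_one (hO.triB t hF ht.2 hm)
  exact ⟨x, fun T => by rw [← h, Sx, and_assoc]⟩

theorem two_tri (hO : X.OK) {e : Finset X.V} (he : e.card = 2) (hm : Mt X.A e) (hF : e ∈ X.F) :
    ∃ x y, x ≠ y ∧ ∀ t, (Sx X 3 t ∧ t ∈ X.F ∧ e ⊆ t) ↔ t = x ∨ t = y := by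
  obtain ⟨x, y, hxy, h⟩ := ncard_two (hO.edgB e hF he hm)
  refine ⟨x, y, hxy, fun t => ?_⟩
  rw [← h, Sx]
  exact ⟨fun hh => ⟨hh.2.1, hh.1.2, hh.2.2⟩, fun hh => ⟨⟨hO.FK hh.1, hh.2.1⟩, hh.1, hh.2.2⟩⟩

/-- the two simplices between -/
theorem btw (hO : X.OK) {n : ℕ} {s T : Finset X.V} (hT : Sx X (n + 2) T) (hs : s.card = n)
    (h : s ⊆ T) : ∃ x y, x ≠ y ∧ ∀ t, (Sx X (n + 1) t ∧ s ⊆ t ∧ t ⊆ T) ↔ t = x ∨ t = y := by
  obtain ⟨x, y, hxy, hh⟩ := between h (by rw [hT.2, hs])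
  refine ⟨x, y, hxy, fun t => ?_⟩
  rw [← hh, Sx, hs]
  exact ⟨fun h' => ⟨h'.2.1, h'.2.2, h'.1.2⟩, fun h' =>
    ⟨⟨hO.cxK.down T hT.1 t h'.2.1 (Finset.card_pos.1 (by omega)), h'.2.2⟩, h'.1, h'.2.1⟩⟩

/-- a function on tetrahedra which does not jump is constant round a good simplex -/
theorem const_tet (hO : X.OK) (hL : X.Loc) {ρ : Finset X.V} (hρ : ρ ∈ X.K) (hm : Mt X.A ρ)
    (hc : 2 ≤ ρ.card) {u : Finset X.V → ZMod 2}
    (hu : ∀ t, Sx X 3 t → t ∉ X.F → ρ ⊆ t → ∀ T1 T2, Sx X 4 T1 → Sx X 4 T2 → t ⊆ T1 → t ⊆ T2 →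
      T1 ≠ T2 → u T1 = u T2)
    {T1 T2 : Finset X.V} (h1 : Sx X 4 T1) (h2 : Sx X 4 T2) (s1 : ρ ⊆ T1) (s2 : ρ ⊆ T2) :
    u T1 = u T2 := by
  have big : ∀ σ ∈ X.K, ρ ⊆ σ → 3 ≤ σ.card → ∀ T1 T2, Sx X 4 T1 → Sx X 4 T2 → σ ⊆ T1 → σ ⊆ T2 →
      u T1 = u T2 := by
    intro σ hσ hs h3 T1 T2 h1 h2 s1 s2
    by_cases h4 : σ.card = 3
    · by_cases hne : T1 = T2
      · rw [hne]
      by_cases hF : σ ∈ X.F
      · obtain ⟨x, hx⟩ := one_tet hO ⟨hσ, h4⟩ (Mt.mono hm hs) hF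
        exact absurd (((hx T1).1 ⟨h1, s1⟩).trans ((hx T2).1 ⟨h2, s2⟩).symm) hne
      · exact hu σ ⟨hσ, h4⟩ hF hs T1 T2 h1 h2 s1 s2 hne
    · rw [← eq_of_card s1 (by rw [h1.2]; omega), ← eq_of_card s2 (by rw [h2.2]; omega)]
  by_cases h3 : 3 ≤ ρ.card
  · exact big ρ hρ subset_rfl h3 T1 T2 h1 h2 s1 s2
  have he : ρ.card = 2 := by omega
  have ne4 : ∀ T, Sx X 4 T → T ≠ ρ := fun T hT h => by have := hT.2; rw [h] at this; omega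
  have key := (hL.edge ρ hρ he hm).2 (fun σ => ∃ T, Sx X 4 T ∧ σ ⊆ T ∧ u T = u T1) ?_
    T1 ⟨h1.1, s1, ne4 T1 h1⟩ T2 ⟨h2.1, s2, ne4 T2 h2⟩
  · obtain ⟨T, hT, hs, hu⟩ := key.1 ⟨T1, h1, subset_rfl, rfl⟩
    rw [← hu, eq_of_card hs (by rw [hT.2, h2.2])]
  · rintro σ ⟨hσ, hs, hne⟩ σ' ⟨hσ', hs', -⟩ hss
    have h3' : 3 ≤ σ.card := by
      have := Finset.card_lt_card (Finset.ssubset_iff_subset_ne.2 ⟨hs, hne.symm⟩)
      omega
    constructor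
    · rintro ⟨T, hT, hsT, huT⟩
      obtain ⟨T', hT', hc', hs''⟩ := hL.pure σ' hσ' (Mt.mono hm hs')
      exact ⟨T', ⟨hT', hc'⟩, hs'',
        (big σ hσ hs h3' T' T ⟨hT', hc'⟩ hT (hss.trans hs'') hsT).trans huT⟩
    · rintro ⟨T, hT, hsT, huT⟩
      exact ⟨T, hT, hss.trans hsT, huT⟩

/-- `Y` colours the tetrahedra round `σ` with jumps `β` -/
def Col (X : Dat G) (β : Finset X.V → ZMod 2) (σ : Finset X.V) (Y : Finset X.V → ZMod 2) : Prop :=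
  ∀ t, Sx X 3 t → t ∉ X.F → σ ⊆ t → ∀ T1 T2, Sx X 4 T1 → Sx X 4 T2 → t ⊆ T1 → t ⊆ T2 →
    T1 ≠ T2 → Y T1 + Y T2 = β t

theorem Col.uniq (hO : X.OK) (hL : X.Loc) {β Y Y' : Finset X.V → ZMod 2} {σ σ' ρ : Finset X.V}
    (h : Col X β σ Y) (h' : Col X β σ' Y') (hρ : ρ ∈ X.K) (hm : Mt X.A ρ) (hc : 2 ≤ ρ.card)
    (hs : σ ⊆ ρ) (hs' : σ' ⊆ ρ) {T1 T2 : Finset X.V} (h1 : Sx X 4 T1) (h2 : Sx X 4 T2)
    (s1 : ρ ⊆ T1) (s2 : ρ ⊆ T2) : Y T1 + Y' T1 = Y T2 + Y' T2 := by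
  refine const_tet hO hL hρ hm hc (u := fun T => Y T + Y' T) ?_ h1 h2 s1 s2
  intro t ht hF hst U1 U2 k1 k2 r1 r2 hne
  have e1 := h t ht hF (hs.trans hst) U1 U2 k1 k2 r1 r2 hne
  have e2 := h' t ht hF (hs'.trans hst) U1 U2 k1 k2 r1 r2 hne
  rw [← e1] at e2
  generalize Y U1 = a, Y U2 = b, Y' U1 = c, Y' U2 = d at e2 ⊢
  revert a b c d; decide

theorem col_edge (hO : X.OK) (hL : X.Loc) {β : Finset X.V → ZMod 2} {e : Finset X.V}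
    (he : Sx X 2 e) (hm : Mt X.A e) (hβ : e ∉ X.F → sm (fun t => Sx X 3 t ∧ e ⊆ t) β = 0) :
    ∃ Y, Col X β e Y := by
  classical
  obtain ⟨Y, hY⟩ := d0 (fun T => Sx X 4 T ∧ e ⊆ T) (fun t => Sx X 3 t ∧ t ∉ X.F ∧ e ⊆ t)
    (fun T t => t ⊆ T) β (fun a ha => by
      let a' : Finset X.V → ZMod 2 := fun t => if t ∈ X.F then 0 else a t
      have loc : ∀ T, Sx X 4 T → ∀ t t', Sx X 3 t → Sx X 3 t' → e ⊆ t → e ⊆ t' → t ⊆ T → t' ⊆ T →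
          a' t = a' t' := by
        intro T hT t t' ht ht' s s' r r'
        obtain ⟨x, y, hxy, hb⟩ := btw hO (n := 2) hT he.2 (s.trans r)
        have h0 : sm (fun t => Sx X 3 t ∧ e ⊆ t ∧ t ⊆ T) a' = 0 := by
          rw [sm_drop (Q := fun t => t ∉ X.F) (fun j _ hj => by simp [a', not_not.1 hj]),
            ← ha T ⟨hT, s.trans r⟩]
          exact sm_congr (fun j => by tauto) fun j hj => by simp [a', hj.1.2.1]
        rw [sm_two hxy hb, z2e] at h0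
        rcases (hb t).1 ⟨ht, s, r⟩ with rfl | rfl <;> rcases (hb t').1 ⟨ht', s', r'⟩ with h | h <;>
          simp [h, h0]
      have ne3 : ∀ t, Sx X 3 t → t ≠ e := fun t ht h => by
        have h1 := ht.2; have h2 := he.2; rw [h] at h1; omega
      have glob : ∀ t t', Sx X 3 t → Sx X 3 t' → e ⊆ t → e ⊆ t' → a' t = a' t' := by
        intro t t' ht ht' s s'
        have key := (hL.edge e he.1 he.2 hm).2
          (fun σ => ∃ u, Sx X 3 u ∧ e ⊆ u ∧ u ⊆ σ ∧ a' u = a' t) ?_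
          t ⟨ht.1, s, ne3 t ht⟩ t' ⟨ht'.1, s', ne3 t' ht'⟩
        · obtain ⟨u, hu, -, hs, h⟩ := key.1 ⟨t, ht, s, subset_rfl, rfl⟩
          rw [← h, eq_of_card hs (by rw [hu.2, ht'.2])]
        · rintro σ ⟨hσ, hs, hne⟩ σ' ⟨hσ', hs', -⟩ hss
          constructor
          · rintro ⟨u, hu, k1, k2, k3⟩
            exact ⟨u, hu, k1, k2.trans hss, k3⟩
          · rintro ⟨u, hu, k1, k2, k3⟩
            by_cases hq : σ'.card ≤ σ.card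
            · exact ⟨u, hu, k1, (eq_of_card hss hq).symm ▸ k2, k3⟩
            have h3' := Finset.card_lt_card (Finset.ssubset_iff_subset_ne.2 ⟨hs, hne.symm⟩)
            have h4 := hO.dimK σ' hσ'
            have h2 := he.2
            exact ⟨σ, ⟨hσ, by omega⟩, hs, subset_rfl,
              (loc σ' ⟨hσ', by omega⟩ σ u ⟨hσ, by omega⟩ hu hs k1 hss k2).trans k3⟩
      by_cases h1 : ∃ t, Sx X 3 t ∧ e ⊆ t ∧ a' t = 1
      · obtain ⟨t0, ht0, s0, h0⟩ := h1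
        have nF : ∀ t, Sx X 3 t → e ⊆ t → t ∉ X.F := fun t ht s hF => by
          have := glob t t0 ht ht0 s s0
          rw [h0] at this
          simp [a', hF] at this
        have eF : e ∉ X.F := fun hF => by
          obtain ⟨x, y, -, hx⟩ := two_tri hO he.2 hm hF
          obtain ⟨k1, k2, k3⟩ := (hx x).2 (Or.inl rfl)
          exact nF x k1 k3 k2
        rw [← hβ eF]
        refine sm_congr (fun j => ⟨fun h => ⟨h.1, h.2.2⟩, fun h => ⟨h.1, nF j h.1 h.2, h.2⟩⟩)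
          fun j hj => ?_
        have := glob j t0 hj.1 ht0 hj.2 s0
        rw [h0] at this
        simp only [a', nF j hj.1 hj.2, if_false] at this
        rw [this, mul_one]
      · refine sm_zero fun j hj => ?_
        rcases z2c (a j) with h | h
        · rw [h, mul_zero]
        · exact absurd ⟨j, hj.1, hj.2.2, by simp [a', hj.2.1, h]⟩ h1)
  refine ⟨Y, fun t ht hF s T1 T2 h1 h2 s1 s2 hne => ?_⟩
  obtain ⟨x, y, hxy, hb⟩ := two_tet hO ht (Mt.mono hm s) hF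
  rw [hY t ⟨ht, hF, s⟩, sm_two hne]
  intro T
  constructor
  · rintro ⟨⟨k1, -⟩, k2⟩
    have a1 := (hb T1).1 ⟨h1, s1⟩
    have a2 := (hb T2).1 ⟨h2, s2⟩
    have a3 := (hb T).1 ⟨k1, k2⟩
    rcases a1 with rfl | rfl <;> rcases a2 with rfl | rfl <;> tauto
  · rintro (rfl | rfl)
    · exact ⟨⟨h1, s.trans s1⟩, s1⟩
    · exact ⟨⟨h2, s.trans s2⟩, s2⟩

theorem col_big (hO : X.OK) (hL : X.Loc) {β : Finset X.V → ZMod 2}
    (hβ : ∀ e, Sx X 2 e → Mt X.A e → e ∉ X.F → sm (fun t => Sx X 3 t ∧ e ⊆ t) β = 0)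
    {σ : Finset X.V} (hσ : σ ∈ X.K) (hm : Mt X.A σ) (hc : 2 ≤ σ.card) : ∃ Y, Col X β σ Y := by
  classical
  by_cases h2 : σ.card = 2
  · exact col_edge hO hL ⟨hσ, h2⟩ hm (hβ σ ⟨hσ, h2⟩ hm)
  obtain ⟨T0, hT0, c0, s0⟩ := hL.pure σ hσ hm
  refine ⟨fun T => if T = T0 then 0 else β σ, fun t ht hF s T1 T2 h1 h3 s1 s2 hne => ?_⟩
  have e : σ = t := eq_of_card s (by rw [ht.2]; omega)
  subst e
  obtain ⟨x, y, hxy, hb⟩ := two_tet hO ht hm hF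
  have a1 := (hb T1).1 ⟨h1, s1⟩
  have a2 := (hb T2).1 ⟨h3, s2⟩
  have a3 := (hb T0).1 ⟨⟨hT0, c0⟩, s0⟩
  rcases a1 with rfl | rfl <;> rcases a2 with rfl | rfl <;> rcases a3 with rfl | rfl <;>
    first | exact absurd rfl hne | simp [hne, hne.symm]

theorem col_vert (hO : X.OK) (hL : X.Loc) {β : Finset X.V → ZMod 2}
    (hβ : ∀ e, Sx X 2 e → Mt X.A e → e ∉ X.F → sm (fun t => Sx X 3 t ∧ e ⊆ t) β = 0)
    {a : X.V} (ha : a ∈ X.A) : ∃ Y, Col X β {a} Y := by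
  classical
  have h1 : ∀ σ : Finset X.V, ∃ Y, σ ∈ X.K → Mt X.A σ → 2 ≤ σ.card → Col X β σ Y := fun σ => by
    by_cases h : σ ∈ X.K ∧ Mt X.A σ ∧ 2 ≤ σ.card
    · obtain ⟨Y, hY⟩ := col_big hO hL hβ h.1 h.2.1 h.2.2
      exact ⟨Y, fun _ _ _ => hY⟩
    · exact ⟨0, fun k1 k2 k3 => absurd ⟨k1, k2, k3⟩ h⟩
  choose Y hY using h1
  have h2 : ∀ σ : Finset X.V, ∃ T, σ ∈ X.K → Mt X.A σ → Sx X 4 T ∧ σ ⊆ T := fun σ => by
    by_cases h : σ ∈ X.K ∧ Mt X.A σ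
    · obtain ⟨T, k1, k2, k3⟩ := hL.pure σ h.1 h.2
      exact ⟨T, fun _ _ => ⟨⟨k1, k2⟩, k3⟩⟩
    · exact ⟨σ, fun k1 k2 => absurd ⟨k1, k2⟩ h⟩
  choose tt htt using h2
  have inW : ∀ σ, σ ∈ {σ | σ ∈ X.K ∧ a ∈ σ ∧ σ ≠ {a}} → σ ∈ X.K ∧ Mt X.A σ ∧ 2 ≤ σ.card := by
    rintro σ ⟨k1, k2, k3⟩
    refine ⟨k1, ⟨a, k2, ha⟩, ?_⟩
    have := Finset.card_lt_card (Finset.ssubset_iff_subset_ne.2
      ⟨Finset.singleton_subset_iff.2 k2, k3.symm⟩)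
    rw [Finset.card_singleton] at this
    omega
  have mv : ∀ σ ∈ {σ | σ ∈ X.K ∧ a ∈ σ ∧ σ ≠ {a}}, ∀ ρ ∈ {σ | σ ∈ X.K ∧ a ∈ σ ∧ σ ≠ {a}},
      σ ⊆ ρ → ∀ T, Sx X 4 T → ρ ⊆ T → Y σ (tt ρ) + Y ρ (tt ρ) = Y σ T + Y ρ T := by
    intro σ hσ ρ hρ s T hT sT
    obtain ⟨k1, k2, k3⟩ := inW σ hσ
    obtain ⟨j1, j2, j3⟩ := inW ρ hρ
    exact Col.uniq hO hL (hY σ k1 k2 k3) (hY ρ j1 j2 j3) j1 j2 j3 s subset_rfl (htt ρ j1 j2).1 hT
      (htt ρ j1 j2).2 sT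
  obtain ⟨l, hl⟩ := hL.vert a ha (fun σ ρ => Y σ (tt ρ) + Y ρ (tt ρ)) (by
    intro x hx y hy z hz s1 s2
    obtain ⟨j1, j2, -⟩ := inW z hz
    have := mv x hx y hy s1 (tt z) (htt z j1 j2).1 (s2.trans (htt z j1 j2).2)
    simp only [this]
    generalize Y x (tt z) = p, Y y (tt z) = q, Y z (tt z) = r
    revert p q r; decide)
  refine ⟨fun T => l T + Y T T, fun t ht hF s T1 T2 h1 h2 s1 s2 hne => ?_⟩
  have hat : a ∈ t := Finset.singleton_subset_iff.1 s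
  have mem : ∀ σ ∈ X.K, t ⊆ σ → σ ∈ {σ | σ ∈ X.K ∧ a ∈ σ ∧ σ ≠ {a}} := fun σ k1 k2 =>
    ⟨k1, k2 hat, fun h => by
      have := Finset.card_le_card k2
      rw [h, ht.2] at this
      simp at this⟩
  have e1 := hl t (mem t ht.1 subset_rfl) T1 (mem T1 h1.1 s1) s1
  have e2 := hl t (mem t ht.1 subset_rfl) T2 (mem T2 h2.1 s2) s2
  simp only [mv t (mem t ht.1 subset_rfl) T1 (mem T1 h1.1 s1) s1 T1 h1 subset_rfl] at e1
  simp only [mv t (mem t ht.1 subset_rfl) T2 (mem T2 h2.1 s2) s2 T2 h2 subset_rfl] at e2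
  have e3 := hY t ht.1 ⟨a, hat, ha⟩ (by rw [ht.2]; omega) t ht hF subset_rfl T1 T2 h1 h2 s1 s2 hne
  simp only [e1, e2, ← e3]
  generalize l t = p, Y t T1 = q, Y t T2 = r, Y T1 T1 = u, Y T2 T2 = v
  revert p q r u v; decide

/-- **(Q)** a set of good triangles, even at the interior good edges, is the frontier of a set of
tetrahedra -/
theorem rel_bound (hO : X.OK) (hL : X.Loc) (hH : H1On X.K X.A) {β : Finset X.V → ZMod 2}
    (hβ : ∀ e, Sx X 2 e → Mt X.A e → e ∉ X.F → sm (fun t => Sx X 3 t ∧ e ⊆ t) β = 0) :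
    ∃ y : Finset X.V → ZMod 2, ∀ t, Sx X 3 t → Mt X.A t → t ∉ X.F →
      β t = sm (fun T => Sx X 4 T ∧ t ⊆ T) y := by
  classical
  have h1 : ∀ a : X.V, ∃ Y, a ∈ X.A → Col X β {a} Y := fun a => by
    by_cases h : a ∈ X.A
    · obtain ⟨Y, hY⟩ := col_vert hO hL hβ h
      exact ⟨Y, fun _ => hY⟩
    · exact ⟨0, fun k => absurd k h⟩
  choose Y hY using h1
  have h2 : ∀ σ : Finset X.V, ∃ T, σ ∈ X.K → Mt X.A σ → Sx X 4 T ∧ σ ⊆ T := fun σ => by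
    by_cases h : σ ∈ X.K ∧ Mt X.A σ
    · obtain ⟨T, k1, k2, k3⟩ := hL.pure σ h.1 h.2
      exact ⟨T, fun _ _ => ⟨⟨k1, k2⟩, k3⟩⟩
    · exact ⟨σ, fun k1 k2 => absurd ⟨k1, k2⟩ h⟩
  choose tt htt using h2
  have mv : ∀ T, Sx X 4 T → ∀ x ∈ T, ∀ y ∈ T, x ∈ X.A → y ∈ X.A →
      Y x (tt {x, y}) + Y y (tt {x, y}) = Y x T + Y y T := by
    intro T hT x hx y hy ax ay
    by_cases hxy : x = y
    · subst hxy; rw [z2, z2]
    have s : ({x, y} : Finset X.V) ⊆ T := by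
      intro z hz
      rcases Finset.mem_insert.1 hz with rfl | hz
      · exact hx
      · exact Finset.mem_singleton.1 hz ▸ hy
    have k1 := hO.cxK.down T hT.1 _ s (by simp)
    have k2 : Mt X.A {x, y} := ⟨x, by simp, ax⟩
    exact Col.uniq hO hL (hY x ax) (hY y ay) k1 k2 (by rw [Finset.card_pair hxy]) (by simp)
      (by simp) (htt _ k1 k2).1 hT (htt _ k1 k2).2 s
  obtain ⟨l, hl⟩ := hH (fun x y => Y x (tt {x, y}) + Y y (tt {x, y})) (by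
    intro σ hσ x hx y hy z hz ax ay az
    obtain ⟨hT, s⟩ := htt σ hσ ⟨x, hx, ax⟩
    simp only [mv _ hT x (s hx) z (s hz) ax az, mv _ hT x (s hx) y (s hy) ax ay,
      mv _ hT y (s hy) z (s hz) ay az]
    generalize Y x (tt σ) = p, Y y (tt σ) = q, Y z (tt σ) = r
    revert p q r; decide)
  refine ⟨fun T => if h : Mt X.A T then Y h.choose T + l h.choose else 0, fun t ht hm hF => ?_⟩
  obtain ⟨a, hat, ha⟩ := hm
  have val : ∀ T, Sx X 4 T → t ⊆ T →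
      (if h : Mt X.A T then Y h.choose T + l h.choose else 0) = Y a T + l a := by
    intro T hT s
    have h : Mt X.A T := ⟨a, s hat, ha⟩
    rw [dif_pos h]
    obtain ⟨k1, k2⟩ := h.choose_spec
    have := hl T hT.1 _ k1 a (s hat) k2 ha
    simp only [mv T hT _ k1 a (s hat) k2 ha] at this
    generalize Y h.choose T = p, Y a T = q, l h.choose = r, l a = u at this ⊢
    revert p q r u; decide
  obtain ⟨x, y, hxy, hb⟩ := two_tet hO ht ⟨a, hat, ha⟩ hF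
  obtain ⟨k1, k2⟩ := (hb x).2 (Or.inl rfl)
  obtain ⟨j1, j2⟩ := (hb y).2 (Or.inr rfl)
  rw [sm_two hxy hb, val x k1 k2, val y j1 j2,
    ← hY a ha t ht hF (Finset.singleton_subset_iff.2 hat) x y k1 j1 k2 j2 hxy]
  generalize Y a x = p, Y a y = q, l a = r
  revert p q r; decide

end Crest.Agent.X212.Lt44
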